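import Vale.Agent.P146.H418.Skel
import Vale.Agent.P146.H698.Kgrid
import Vale.Agent.P146.H762.Qm
import Vale.Agent.P146.H412.K8
import Vale.Agent.P146.H320.TypS
import Vale.Agent.P146.H615.PointS
import Vale.Agent.P146.H197.Mast2

/-!
# P146: the lower bound of the relative entropy from the root equation at typical points

On the names of `H418.Skel`:

* `rr_mono`, `ff_mono`: monotonicity in the set of sites and in the two shares;
* `rr_ge_qq`, `rr_le_qq`: second moments of the overlap against the weighted first moments;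
* `klow`: `KA ≥ (n x² b² / 4) (J - error)` from the lower bound of `rr` at one point `(m, u)`
  for every `T`.
-/

open MeasureTheory ProbabilityTheory Set

namespace Vale.Agent.P146.H643

open Vale.Agent.P157.Lv hiding Dep
open Vale.Agent.P146.H425 Vale.Agent.P146.H646
open Vale.Agent.P146.H325 hiding cb cf
open Vale.Agent.P146.H196 Vale.Agent.P146.H246 Vale.Agent.P146.H347
  Vale.Agent.P146.H816 Vale.Agent.P146.H119 Vale.Agent.P146.H475 Vale.Agent.P146.H418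
  Vale.Agent.P146.H317

set_option linter.unusedSectionVars false

variable (L : Law)

/-! ### monotonicity -/

lemma sh_skel {t u : ℝ} (v : ℝ) (h0 : 0 ≤ t) (h1 : t ≤ 1) (h2 : 0 ≤ u) (h3 : u ≤ 1) :
    Sh (cb t) (cf v u) {true} {true} 1 (√v) t u :=
  H698.sh_can v h0 h1 h2 h3

lemma Sn_anti {n : ℕ} {m m' : ℕ} (h : m ≤ m') : Sn n m' ⊆ Sn n m := by
  intro i hi
  simp only [Sn, Finset.mem_filter, Finset.mem_univ, true_and] at hi ⊢
  omega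

section mono

variable {L} {S S' : Finset (Fin L.n)} {t t' u u' : ℝ}

lemma pp_mono (hl : 0 < L.lam) (hη : 0 ≤ L.η) (hv : 0 < L.vp) (hS : S ⊆ S') (ht0 : 0 ≤ t)
    (ht : t ≤ t') (ht1 : t' ≤ 1) (hu0 : 0 ≤ u) (hu : u ≤ u') (hu1 : u' ≤ 1) :
    L.pp S t u ≤ L.pp S' t' u' := by
  have h := H9.PPs_mono (n := L.n) (b := L.b) (s := L.s) (c := L.c) (x := L.x) hl hη one_pos
    (Real.sqrt_pos.2 hv) (sh_skel L.vp ht0 (ht.trans ht1) hu0 (hu.trans hu1))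
    (sh_skel L.vp (ht0.trans ht) ht1 (hu0.trans hu) hu1) hS ht hu
  exact h

lemma ff_mono (hl : 0 < L.lam) (hη : 0 ≤ L.η) (hv : 0 < L.vp) (hS : S ⊆ S') (ht0 : 0 ≤ t)
    (ht : t ≤ t') (ht1 : t' ≤ 1) (hu0 : 0 ≤ u) (hu : u ≤ u') (hu1 : u' ≤ 1) :
    L.ff S t u ≤ L.ff S' t' u' := by
  have h := H9.MMs_mono (n := L.n) (b := L.b) (s := L.s) (c := L.c) (x := L.x) hl hη one_pos
    (Real.sqrt_pos.2 hv) (sh_skel L.vp ht0 (ht.trans ht1) hu0 (hu.trans hu1))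
    (sh_skel L.vp (ht0.trans ht) ht1 (hu0.trans hu) hu1) hS ht hu
  exact h

lemma rr_mono (hl : 0 < L.lam) (hη : 0 ≤ L.η) (hv : 0 < L.vp) (hS : S ⊆ S') (ht0 : 0 ≤ t)
    (ht : t ≤ t') (ht1 : t' ≤ 1) (hu0 : 0 ≤ u) (hu : u ≤ u') (hu1 : u' ≤ 1) :
    L.rr S t u ≤ L.rr S' t' u' := by
  unfold Law.rr
  have := pp_mono hl hη hv hS ht0 ht ht1 hu0 hu hu1
  gcongr

lemma pp_nonneg (hl : 0 < L.lam) (hη : 0 ≤ L.η) : 0 ≤ L.pp S t u :=
  H698.Q2_nonneg hl hη S _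

lemma rr_nonneg (hl : 0 < L.lam) (hη : 0 ≤ L.η) : 0 ≤ L.rr S t u := by
  unfold Law.rr
  have := pp_nonneg (S := S) (t := t) (u := u) hl hη
  positivity

end mono

/-! ### second moments and weighted first moments -/

section moments

variable {L} {S : Finset (Fin L.n)} {t u θ : ℝ}

/-- the second moment of the overlap of two copies, with the diagonal -/
noncomputable def CC (L : Law) (S : Finset (Fin L.n)) (t u : ℝ) : ℝ :=
  L.ex' t u fun z => (∑ i ∈ S, ∑ j ∈ S, L.cx' S t u (fun w => sp w.2 i * sp w.2 j) z ^ 2) /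
    (L.n : ℝ) ^ 2

lemma CC_eq_em :
    CC L S t u = H762.em L.b (cb t) (cf L.vp u) L.s L.η L.lam L.c L.x
      (H762.cc L.b (cb t) (cf L.vp u) L.s L.η L.lam L.c L.x (Kt L.n S) S) / (L.n : ℝ) ^ 2 := by
  unfold CC Law.ex'
  simp only [div_eq_inv_mul]
  rw [H615.ex_cmul]
  rfl

lemma qq_eq_em :
    L.qq S t u = H762.em L.b (cb t) (cf L.vp u) L.s L.η L.lam L.c L.x
      (fun z => H762.ma L.b (cb t) (cf L.vp u) L.s L.η L.lam L.c L.x (Kt L.n S) S z ^ 2) /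
        (L.n : ℝ) ^ 2 := by
  unfold Law.qq Law.ex' Law.Q
  simp only [div_eq_inv_mul, mul_pow]
  rw [H615.ex_cmul, inv_pow]
  rfl

lemma rk_eq_em : L.rk S t u = H762.em L.b (cb t) (cf L.vp u) L.s L.η L.lam L.c L.x
      (H762.rkn L.b (cb t) (cf L.vp u) L.s L.η L.lam L.c L.x (Kt L.n S) S) / (L.n : ℝ) ^ 2 := rfl

lemma CC_eq_rr (hl : 0 < L.lam) (hη : 0 ≤ L.η) (hn : 0 < L.n) :
    CC L S t u = (S.card : ℝ) / (L.n : ℝ) ^ 2 + L.rr S t u := by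
  have hn' : (0 : ℝ) < L.n := by exact_mod_cast hn
  have hw : Wt (g1 (Co L.n Bool Bool)) (L.wt t u) :=
    wtA (n := L.n) L.b (cb t) (cf L.vp u) L.s hl hη L.c L.x
  have e1 : ∀ z, (∑ i ∈ S, ∑ j ∈ S, L.cx' S t u (fun w => sp w.2 i * sp w.2 j) z ^ 2) =
      S.card + 2 * ∑ p ∈ ps S, L.cx' S t u (fun w => SkS p w.2) z ^ 2 := by
    intro z
    have h1 := H347.mo_two_cx L.b (cb t) (cf L.vp u) L.s hl hη L.c L.x (Kt L.n S) S z
    have h2 := H412.mo_prs hl hη L.c L.x L.b (cb t) (cf L.vp u) L.s (Kt L.n S) S z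
    exact h1.trans h2
  have hb : ∀ p : Pair L.n, BM (L.cx' S t u (fun w => SkS p w.2)) := fun p =>
    hw.bm_cx (Kt L.n S) (H347.bm (gmA (n := L.n) L.b (cb t) (cf L.vp u) L.s hl hη L.c) 1
      (H9.bm_SkS p))
  unfold CC Law.rr Law.pp Law.ex'
  simp only [e1, div_eq_inv_mul]
  have hs : BM fun z => ∑ p ∈ ps S, L.cx' S t u (fun w => SkS p w.2) z ^ 2 :=
    BM.sum _ fun p _ => H615.bsq (hb p)
  rw [H615.ex_cmul, H615.ex_add hw (BM.const _) (H615.bcm _ hs), H615.ex_cmul,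
    H615.ex_const hw]
  ring

/-- **from below** -/
theorem rr_ge_qq (hl : 0 < L.lam) (hη : 0 ≤ L.η) (hn : 0 < L.n) (hθ : 0 < θ) (hθ1 : θ ≤ 1) :
    (1 - θ) ^ 2 * L.qq S t u - 1 / θ * (L.η * (2 + L.η)) ^ 2 * CC L S t u -
      1 / θ * L.rk S t u - 1 / L.n ≤ L.rr S t u := by
  have hn' : (0 : ℝ) < L.n := by exact_mod_cast hn
  have h := H762.em_cc_ge L.b (cb t) (cf L.vp u) L.s hl hη L.c L.x (Kt L.n S) S hθ hθ1
  have h2 : (0 : ℝ) < (L.n : ℝ) ^ 2 := by positivity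
  have h3 := div_le_div_of_nonneg_right h h2.le
  rw [← CC_eq_em] at h3
  have h4 : (S.card : ℝ) / (L.n : ℝ) ^ 2 ≤ 1 / L.n := by
    rw [div_le_div_iff₀ h2 hn']
    have : (S.card : ℝ) ≤ L.n := by
      have h5 := Finset.card_le_univ S
      rw [Fintype.card_fin] at h5
      exact_mod_cast h5
    nlinarith
  have h5 := CC_eq_rr (S := S) (t := t) (u := u) hl hη hn
  rw [qq_eq_em, rk_eq_em]
  rw [sub_div, sub_div, mul_div_assoc, mul_div_assoc, mul_div_assoc, ← CC_eq_em] at h3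
  linarith

/-- **from above** -/
theorem rr_le_qq (hl : 0 < L.lam) (hη : 0 ≤ L.η) (hn : 0 < L.n) (hθ : 0 < θ) :
    L.rr S t u ≤ (1 + θ) ^ 2 * L.qq S t u +
      (1 + θ) * (1 + 1 / θ) * (L.η * (2 + L.η)) ^ 2 * CC L S t u + (1 + 1 / θ) * L.rk S t u := by
  have hn' : (0 : ℝ) < L.n := by exact_mod_cast hn
  have h := H762.em_cc_le L.b (cb t) (cf L.vp u) L.s hl hη L.c L.x (Kt L.n S) S hθ
  have h2 : (0 : ℝ) < (L.n : ℝ) ^ 2 := by positivity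
  have h3 := div_le_div_of_nonneg_right h h2.le
  rw [← CC_eq_em] at h3
  have h4 : (0 : ℝ) ≤ (S.card : ℝ) / (L.n : ℝ) ^ 2 := by positivity
  have h5 := CC_eq_rr (S := S) (t := t) (u := u) hl hη hn
  rw [qq_eq_em, rk_eq_em]
  rw [add_div, add_div, mul_div_assoc, mul_div_assoc, mul_div_assoc, ← CC_eq_em] at h3
  linarith

end moments

/-! ### the path -/

lemma KA_eq : L.KA = H698.KAc L.n L.b L.vp L.s L.lam L.η L.c L.x := rfl

lemma pp_eq_ppc (S : Finset (Fin L.n)) (t u : ℝ) :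
    L.pp S t u = H698.ppc L.n L.b L.vp L.s L.lam L.η L.c L.x S t u := rfl

/-- **THE LOWER BOUND OF THE RELATIVE ENTROPY**: `N` levels, final point `(m₁, u₁)`; for every
`T` in `[gg h N, T₂]` the root equation from below at one point `(m, u)` with `m ≥ m₁`,
`u ≤ u₁`. -/
theorem klow {L : Law} (hn : 0 < L.n) (hl : 0 < L.lam) (hη : 0 ≤ L.η) (hx : 0 < L.x)
    (hv : 0 < L.vp) {h a w c e T₂ R E1 u1 : ℝ} {m1 N : ℕ} (hc : 0 < c) (hw : 0 < w)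
    (ha : 0 ≤ a) (hh : 0 ≤ h) (hh4 : h ≤ 1 / 4) (he : 0 ≤ e) (hE1 : 0 ≤ E1) (hu0 : 0 ≤ u1)
    (hu1 : u1 ≤ 1) (hN : gg h N ≤ T₂) (hT2 : (1 + h) * T₂ ≤ 1) (haT : a < T₂)
    (hR : rho c a w 0 ≤ R)
    (h1 : ∀ T ∈ Icc (gg h N) T₂, ∃ (m : ℕ) (u : ℝ), m1 ≤ m ∧ 0 ≤ u ∧ u ≤ u1 ∧
      rho ((1 + h) * c) ((1 - h) * a - e) ((1 - h) * w) T ^ 2 - E1 ≤
        L.rr (Sn L.n m) (1 - T) u) :
    L.n * L.x ^ 2 * L.b ^ 2 / 4 * (J c a w - (5 * h * (w * R + c * R ^ 3) +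
      2 * (h * a + e) * R ^ 2 + 2 * gg h N * R ^ 2 + 2 * w ^ 2 / (T₂ - a) + T₂ * E1)) ≤ L.KA := by
  have hn' : (0 : ℝ) < L.n := by exact_mod_cast hn
  have hA : 0 ≤ L.n * L.x ^ 2 * L.b ^ 2 / 4 := by positivity
  have hk := kamp_low (K := L.KA) (A := L.n * L.x ^ 2 * L.b ^ 2 / 4) (c := c) (a := a) (w := w)
    (η := h) (e := e) (T₂ := T₂) (R := R) (E1 := E1) (E0 := 0) (N := N)
    (r := fun T => L.rr (Sn L.n m1) (1 - T) u1) hA hc hw ha hh hh4 he hE1 hN hT2 haT hR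
    (fun T hT T' hT' hTT => rr_mono hl hη hv (Finset.Subset.refl _) (by linarith [hT'.2])
      (by linarith) (by linarith [hT.1]) hu0 le_rfl hu1)
    (fun T hT => rr_nonneg hl hη) ?_ (fun T hT => ?_)
  · simpa using hk
  · rw [sub_zero, KA_eq]
    have hg := H698.kgrid_low (n := L.n) (b := L.b) (v := L.vp) (s := L.s) (lam := L.lam)
      (η := L.η) (c := L.c) (x := L.x) (h := h) (u := u1) hl hη hx hv hh hu0 hu1 hn (N + 1)
      (Sn L.n m1)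
    exact hg
  · obtain ⟨m, u, hm, hu, huu, hr⟩ := h1 T hT
    have hT0 : 0 < T := (gg_pos hh N).trans_le hT.1
    have hT1 : T ≤ 1 := by
      have := hT.2
      nlinarith
    exact hr.trans (rr_mono hl hη hv (Sn_anti hm) (by linarith) le_rfl (by linarith) hu huu hu1)


/-! ### one point -/

section point

variable {L : Law}

lemma card_Sn {n m : ℕ} (h : m ≤ n) : (Sn n m).card = n - m := by
  have h1 : Sn n m = Finset.univ.filter fun i : Fin n => (i : ℕ) < n - m := by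
    ext i
    simp only [Sn, Finset.mem_filter, Finset.mem_univ, true_and]
    omega
  rw [h1]
  have h2 := Fin.card_filter_val_lt (n := n) (m := n - m)
  omega

lemma Qv_eq (S : Finset (Fin L.n)) (t u : ℝ) :
    H615.Qv L.n L.b (cb t) (cf L.vp u) L.s L.η L.lam L.c L.x S {true} {true} = L.Q S t u := rfl

lemma qq_eq_ex (S : Finset (Fin L.n)) (t u : ℝ) :
    exS L.n L.b (cb t) (cf L.vp u) L.s L.η L.lam L.c L.x
      (fun z => H615.Qv L.n L.b (cb t) (cf L.vp u) L.s L.η L.lam L.c L.x S {true} {true} z ^ 2) =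
      L.qq S t u := rfl

/-- the error of the row equation at the point `(m, t, u)` for the test function with the
numbers `P`, `Lr` -/
noncomputable def XE (L : Law) (r0 P Lr : ℝ) (m : ℕ) (t u : ℝ) (i0 : Fin L.n) : ℝ :=
  (P * H615.Er1 L.n L.b (cb t) (cf L.vp u) L.s L.η L.lam L.c L.x r0 t (u * L.vp / L.b ^ 2)
      (Sn L.n m) Finset.univ {true} {true} +
    H615.E2n L.n L.b (cb t) (cf L.vp u) L.s L.η L.lam L.c L.x P Lr (Sn L.n m) {true} {true} i0) /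
    (L.b * (1 - (1 - L.x) * r0)) ^ 2

lemma alg_th {θ p q E0 : ℝ} (hθ : 0 ≤ θ) (hp : 0 ≤ p) (hq : 0 ≤ q) (h : p - E0 ≤ q)
    (hE : 0 ≤ E0) : p - (2 * θ * p + E0) ≤ (1 - θ) ^ 2 * q := by
  have h1 : (1 - 2 * θ) * q ≤ (1 - θ) ^ 2 * q :=
    mul_le_mul_of_nonneg_right (by nlinarith [sq_nonneg θ]) hq
  rcases le_total p q with h6 | h6
  · have h2 : (1 - θ) ^ 2 * p ≤ (1 - θ) ^ 2 * q := mul_le_mul_of_nonneg_left h6 (sq_nonneg _)
    have h3 : (1 - 2 * θ) * p ≤ (1 - θ) ^ 2 * p :=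
      mul_le_mul_of_nonneg_right (by nlinarith [sq_nonneg θ]) hp
    linarith
  · have h2 : θ * q ≤ θ * p := mul_le_mul_of_nonneg_left h6 hθ
    linarith

/-- **The second moment of the overlap from below, at one point.** -/
theorem rr_low (hA : H320.Adm L) (hη1 : L.η ≤ 1 / 2) (hs : L.s ≠ 0) (hx0 : 0 < L.x)
    (hx1 : L.x < 1) {r0 : ℝ} (hc : L.c = L.s ^ 2 * L.n * (1 - (1 - L.x) * r0))
    (hk : 0 < L.b * (1 - (1 - L.x) * r0)) {m : ℕ} (hmn : m < L.n) {T u : ℝ}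
    (hT0 : 0 ≤ T) (hT1 : T ≤ 1) (hu0 : 0 < u) {i0 : Fin L.n}
    (hi0 : i0.1 + m = L.n) {a e e' θ : ℝ} (he0 : 0 ≤ e') (he1 : e' < 1)
    (hA1 : L.b * (1 - (1 - L.x) * r0) ≤ 1 + e')
    (hae : (L.n : ℝ) / (L.n - m) / (L.b * (1 - (1 - L.x) * r0)) ^ 2 +
        2 * (L.b * L.x * (L.b * (1 - (1 - L.x) * r0)) * (u * L.vp / L.b ^ 2)) ≤ 1 - a + e)
    (hwe : L.b * L.x * (L.b * (1 - (1 - L.x) * r0)) * (u * L.vp / L.b ^ 2) ≤ e')
    (hθ : 0 < θ) (hθ1 : θ ≤ 1) {c1 a1 w1 ρ P Lr : ℝ}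
    (hc1 : c1 = (1 + e') * (L.b * L.x)) (ha1 : a1 = a - e)
    (hw1 : w1 = (1 - e') * (u * L.vp / L.b ^ 2))
    (hρ : ρ = rho c1 a1 w1 T) (hP : P = 1 / c1 + ρ ^ 2 / w1)
    (hLr : Lr = (1 + c1 * ρ ^ 2 / w1) * √(ρ / (c1 * w1))) {c2 a2 w2 E0 : ℝ}
    (hc2 : c1 ≤ c2) (ha2 : a2 ≤ a1) (hw20 : 0 < w2) (hw2 : w2 ≤ w1) (hE0 : 0 ≤ E0)
    (hE : XE L r0 P Lr m (1 - T) u i0 ≤ E0) :
    rho c2 a2 w2 T ^ 2 - (2 * θ * rho c2 a2 w2 T ^ 2 + E0 +
      1 / θ * (L.η * (2 + L.η)) ^ 2 * CC L (Sn L.n m) (1 - T) u +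
      1 / θ * L.rk (Sn L.n m) (1 - T) u + 1 / L.n) ≤ L.rr (Sn L.n m) (1 - T) u := by
  have hn' : (0 : ℝ) < L.n := by exact_mod_cast hA.n0
  have hcard : ((Sn L.n m).card : ℝ) = L.n - m := by
    rw [card_Sn hmn.le, Nat.cast_sub hmn.le]
  have hwf : ∑ l ∈ ({true} : Finset Bool), cf L.vp u l ^ 2 = L.b ^ 2 * (u * L.vp / L.b ^ 2) := by
    have hb2 : L.b ≠ 0 := hA.b0.ne'
    rw [Finset.sum_singleton]
    simp only [cf, cb, if_true, mul_pow]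
    rw [Real.sq_sqrt hA.vp0.le, Real.sq_sqrt hu0.le]
    field_simp
  have ht : ∑ l ∈ ({true} : Finset Bool), cb (1 - T) l ^ 2 = 1 - T := by
    rw [Finset.sum_singleton]
    simp only [cb, if_true]
    exact Real.sq_sqrt (by linarith)
  have hSn : (Sn L.n m).Nonempty := by
    rw [← Finset.card_pos, card_Sn hmn.le]
    omega
  have hi1 : i0 ∉ Sn L.n m := by
    simp only [Sn, Finset.mem_filter, Finset.mem_univ, true_and]
    omega
  have hne : ((Finset.univ : Finset (Fin L.n)) \ Sn L.n m).Nonempty :=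
    ⟨i0, Finset.mem_sdiff.2 ⟨Finset.mem_univ _, hi1⟩⟩
  have key := H615.point_low hA.lam0 hA.η0 hη1 hs hx0 hx1 hA.n0 hc hk hA.b0
    (Finset.subset_univ (Sn L.n m)) hSn hi1 hne ht hwf
    (by have := hA.vp0; have := hA.b0; positivity) he0 he1 (by linarith) hA1
    (by rw [hcard]; exact hae) hwe hc1 ha1 hw1 (by rw [hρ]; congr 1; ring) hP hLr
  have h1 : ρ ^ 2 - E0 ≤ L.qq (Sn L.n m) (1 - T) u := by
    have h2 : ρ ^ 2 - XE L r0 P Lr m (1 - T) u i0 ≤ L.qq (Sn L.n m) (1 - T) u := key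
    linarith
  have hbx : 0 < L.b * L.x := mul_pos hA.b0 hx0
  have hc10 : 0 < c1 := by rw [hc1]; exact mul_pos (by linarith) hbx
  have hmono : rho c2 a2 w2 T ≤ ρ := by
    rw [hρ]
    exact rho_mono hc10 hc2 hw20 hw2 (by linarith)
  have hp2 : 0 < rho c2 a2 w2 T := rho_pos (hc10.trans_le hc2) hw20
  have hsq : rho c2 a2 w2 T ^ 2 ≤ ρ ^ 2 := pow_le_pow_left₀ hp2.le hmono 2
  have hqq : 0 ≤ L.qq (Sn L.n m) (1 - T) u := by
    have hw : Wt (g1 (Co L.n Bool Bool)) (L.wt (1 - T) u) :=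
      wtA (n := L.n) L.b (cb (1 - T)) (cf L.vp u) L.s hA.lam0 hA.η0 L.c L.x
    exact H615.ex_nonneg hw fun z => sq_nonneg _
  have h3 := rr_ge_qq (S := Sn L.n m) (t := 1 - T) (u := u) hA.lam0 hA.η0 hA.n0 hθ hθ1
  set q := L.qq (Sn L.n m) (1 - T) u with hq
  set p := rho c2 a2 w2 T ^ 2 with hp
  have hp0 : 0 ≤ p := by rw [hp]; positivity
  have h4 := alg_th hθ.le hp0 hqq (show p - E0 ≤ q by linarith) hE0
  linarith

lemma rho_low {c a w h e T : ℝ} (hc : 0 < c) (hw : 0 < w) (ha : 0 ≤ a) (hh : 0 ≤ h)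
    (hh4 : h ≤ 1 / 4) (he : 0 ≤ e) (hT : 0 ≤ T) :
    rho ((1 + h) * c) ((1 - h) * a - e) ((1 - h) * w) T ≤ rho c a w 0 := by
  have h1 : c ≤ (1 + h) * c := le_mul_of_one_le_left hc.le (by linarith)
  have h2 : (1 - h) * w ≤ w := mul_le_of_le_one_left hw.le (by linarith)
  have h3 : (1 - h) * a ≤ a := mul_le_of_le_one_left ha (by linarith)
  exact rho_mono hc h1 (mul_pos (by linarith) hw) h2 (by linarith)

/-- the root of the lower equation at the share `u` of the field -/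
noncomputable def rhoL (L : Law) (a1 e' u T : ℝ) : ℝ :=
  rho ((1 + e') * (L.b * L.x)) a1 ((1 - e') * (u * L.vp / L.b ^ 2)) T

/-- the bound of the test function -/
noncomputable def PL (L : Law) (a1 e' u T : ℝ) : ℝ :=
  1 / ((1 + e') * (L.b * L.x)) + rhoL L a1 e' u T ^ 2 / ((1 - e') * (u * L.vp / L.b ^ 2))

/-- the Lipschitz constant of the test function in `√Q` -/
noncomputable def LrL (L : Law) (a1 e' u T : ℝ) : ℝ :=
  (1 + (1 + e') * (L.b * L.x) * rhoL L a1 e' u T ^ 2 / ((1 - e') * (u * L.vp / L.b ^ 2))) *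
    √(rhoL L a1 e' u T / ((1 + e') * (L.b * L.x) * ((1 - e') * (u * L.vp / L.b ^ 2))))

/-- the choice at one `T`: the numbers of the typical point `(m, u)` in the two-level system -/
def TypL (L : Law) (u0 u1 : ℝ) (m1 m2 : ℕ) (T u : ℝ) (m : ℕ) : Prop :=
  H320.Typ L (cb (1 - T)) (cf L.vp u) (1 - T) u1 0 (u1 - u0) 6 ((m2 : ℝ) - m1 + 1) m
    {true} {true}

/-- **THE LOWER BOUND OF THE RELATIVE ENTROPY, FROM THE NUMBERS AT THE TYPICAL POINTS.** -/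
theorem klow_n (hA : H320.Adm L) (hη1 : L.η ≤ 1 / 2) (hs : L.s ≠ 0) (hx0 : 0 < L.x)
    (hx1 : L.x < 1) {r0 : ℝ} (hc : L.c = L.s ^ 2 * L.n * (1 - (1 - L.x) * r0))
    (hk : 0 < L.b * (1 - (1 - L.x) * r0)) {m1 m2 N : ℕ} (hm1 : 1 ≤ m1) (hm12 : m1 ≤ m2)
    (hm2 : m2 < L.n) {u0 u1 : ℝ} (hu0 : 0 < u0) (hu01 : u0 ≤ u1) (hu1 : u1 ≤ 1)
    {h a w e e' θ T₂ R E0 E1 : ℝ} (ha : 0 ≤ a) (hw : 0 < w) (hh : 0 ≤ h) (hh4 : h ≤ 1 / 4)
    (he : 0 ≤ e) (hN : gg h N ≤ T₂) (hT2 : (1 + h) * T₂ ≤ 1) (haT : a < T₂)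
    (hR : rho (L.b * L.x) a w 0 ≤ R) (he0 : 0 ≤ e') (heh : e' ≤ h)
    (hA1 : L.b * (1 - (1 - L.x) * r0) ≤ 1 + e')
    (hae : (L.n : ℝ) / (L.n - m2) / (L.b * (1 - (1 - L.x) * r0)) ^ 2 +
        2 * (L.b * L.x * (L.b * (1 - (1 - L.x) * r0)) * (u1 * L.vp / L.b ^ 2)) ≤
          1 - (1 - h) * a + e)
    (hwe : L.b * L.x * (L.b * (1 - (1 - L.x) * r0)) * (u1 * L.vp / L.b ^ 2) ≤ e')
    (hww : (1 - h) * w ≤ (1 - e') * (u0 * L.vp / L.b ^ 2))
    (hθ : 0 < θ) (hθ1 : θ ≤ 1) (hE0 : 0 ≤ E0) (hE1 : 0 ≤ E1)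
    (hX : ∀ T ∈ Icc (gg h N) T₂, ∀ u ∈ Icc u0 u1, ∀ m ∈ Finset.Icc m1 m2,
      ∀ i0 : Fin L.n, i0.1 + m = L.n → TypL L u0 u1 m1 m2 T u m →
      XE L r0 (PL L ((1 - h) * a - e) e' u T) (LrL L ((1 - h) * a - e) e' u T) m (1 - T) u i0 ≤
          E0 ∧
        2 * θ * R ^ 2 + E0 + 1 / θ * (L.η * (2 + L.η)) ^ 2 * CC L (Sn L.n m) (1 - T) u +
          1 / θ * L.rk (Sn L.n m) (1 - T) u + 1 / L.n ≤ E1) :
    L.n * L.x ^ 2 * L.b ^ 2 / 4 * (J (L.b * L.x) a w -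
      (5 * h * (w * R + L.b * L.x * R ^ 3) + 2 * (h * a + e) * R ^ 2 +
        2 * gg h N * R ^ 2 + 2 * w ^ 2 / (T₂ - a) + T₂ * E1)) ≤ L.KA := by
  have hn' : (0 : ℝ) < L.n := by exact_mod_cast hA.n0
  have hbx : 0 < L.b * L.x := mul_pos hA.b0 hx0
  have hb2 : 0 < L.b ^ 2 := by have := hA.b0; positivity
  refine klow hA.n0 hA.lam0 hA.η0 hx0 hA.vp0 (u1 := u1) (m1 := m1) hbx hw ha hh hh4 he hE1
    (hu0.le.trans hu01) hu1 hN hT2 haT hR fun T hT => ?_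
  have hT0 : 0 < T := (gg_pos hh N).trans_le hT.1
  have hT1 : T ≤ 1 := by
    have := hT.2
    nlinarith
  obtain ⟨t, ht, u, hu, m, hm, hty⟩ := H320.typ1 hA hm1 hm12 (t0 := 1 - T) (t1 := 1 - T)
    (u0 := u0) (u1 := u1) (by linarith) le_rfl (by linarith) hu0.le hu01 hu1
  have ht' : t = 1 - T := le_antisymm ht.2 ht.1
  subst ht'
  have hmI := Finset.mem_Icc.1 hm
  have hup : 0 < u := hu0.trans_le hu.1
  have hul : u ≤ 1 := hu.2.trans hu1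
  have hmn : m < L.n := hmI.2.trans_lt hm2
  have hi0 : L.n - m < L.n := by omega
  have hty' : TypL L u0 u1 m1 m2 T u m := by
    have h1 := hty Bool Bool (cb (1 - T)) (cf L.vp u) {true} {true}
      (H320.sh_can hA (by linarith) (by linarith) hup.le hul)
    unfold TypL
    rw [sub_self] at h1
    exact h1
  obtain ⟨x1, x2⟩ := hX T hT u hu m hm ⟨L.n - m, hi0⟩ (by show L.n - m + m = L.n; omega) hty'
  refine ⟨m, u, hmI.1, hup.le, hu.2, ?_⟩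
  have hvb : 0 < L.vp / L.b ^ 2 := div_pos hA.vp0 hb2
  have huv : u * L.vp / L.b ^ 2 ≤ u1 * L.vp / L.b ^ 2 :=
    div_le_div_of_nonneg_right (mul_le_mul_of_nonneg_right hu.2 hA.vp0.le) hb2.le
  have huv0 : u0 * L.vp / L.b ^ 2 ≤ u * L.vp / L.b ^ 2 :=
    div_le_div_of_nonneg_right (mul_le_mul_of_nonneg_right hu.1 hA.vp0.le) hb2.le
  have hq : 0 ≤ L.b * L.x * (L.b * (1 - (1 - L.x) * r0)) := mul_nonneg hbx.le hk.le
  have hq1 := mul_le_mul_of_nonneg_left huv hq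
  have hm2' : (0 : ℝ) < L.n - m2 := by
    have : (m2 : ℝ) < L.n := by exact_mod_cast hm2
    linarith
  have hmm : (m : ℝ) ≤ m2 := by exact_mod_cast hmI.2
  have hnm : (L.n : ℝ) / (L.n - m) / (L.b * (1 - (1 - L.x) * r0)) ^ 2 ≤
      (L.n : ℝ) / (L.n - m2) / (L.b * (1 - (1 - L.x) * r0)) ^ 2 := by
    refine div_le_div_of_nonneg_right ?_ (sq_nonneg _)
    exact div_le_div_of_nonneg_left hn'.le hm2' (by linarith)
  have key := rr_low hA hη1 hs hx0 hx1 hc hk hmn hT0.le hT1 hup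
    (i0 := ⟨L.n - m, hi0⟩) (by show L.n - m + m = L.n; omega) (a := (1 - h) * a) (e := e)
    he0 (by linarith) hA1 (by linarith) (by linarith) hθ hθ1 rfl rfl rfl
    (ρ := rhoL L ((1 - h) * a - e) e' u T) rfl rfl rfl
    (c2 := (1 + h) * (L.b * L.x)) (a2 := (1 - h) * a - e) (w2 := (1 - h) * w)
    (mul_le_mul_of_nonneg_right (by linarith) hbx.le) le_rfl (mul_pos (by linarith) hw)
    (hww.trans (mul_le_mul_of_nonneg_left huv0 (by linarith))) hE0 x1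
  refine le_trans ?_ key
  have hρ := (rho_low hbx hw ha hh hh4 he hT0.le).trans hR
  have hρ0 : 0 < rho ((1 + h) * (L.b * L.x)) ((1 - h) * a - e) ((1 - h) * w) T :=
    rho_pos (mul_pos (by linarith) hbx) (mul_pos (by linarith) hw)
  have hsq := pow_le_pow_left₀ hρ0.le hρ 2
  have h2 := mul_le_mul_of_nonneg_left hsq (show (0 : ℝ) ≤ 2 * θ by linarith)
  linarith

end point

end Vale.Agent.P146.H643
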