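import Vale.Agent.P146.H643.LcFar
import Vale.Agent.P146.H470.LcD

/-!
# P146: the far zone of LC, the input of `H470.lcampW_of`
-/

namespace Vale.Agent.P146.H643.LC

/-- the first half of the far bound of the weak LC -/
theorem lcFar1 {b q b₀ b₁ : ℝ} (hb : 0 < b) (hq : 0 < q) (hqb : 100 * q ≤ b₀) (hbb : b₀ ≤ b₁)
    (hb₁ : b₁ ≤ 1 / 100) : H470.LcFar1 b b₁ b₀ (23 * q) (10 * q) q (1 / 10) (1 / 4) q q q q
      (40 * q) (6 * q) (4 * q) :=
  far_zone hb hq hqb hbb hb₁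

end Vale.Agent.P146.H643.LC
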