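import Vale.Agent.P146.H643.LcMass
import Vale.Agent.P146.H317.C3v
import Vale.Agent.P146.H615.ErSk

/-!
# P146: the cubic term for the test function `1`, on the names of `H418.Skel`

* `rkI_le`, `k4I_le`, `incI_eq`, `indCC_le`: the numbers of `H317.c3v_le` at the set with one more
  row, in the letters of `H320.Typ` and `H412.CC`;
* `c3_one`: `C3U ≤ A² (c3 qq) + err3` with the closed numbers `c3n`, `err3n` (`l0 = del = U`).
-/

open MeasureTheory ProbabilityTheory Set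

namespace Vale.Agent.P146.H643.LC

open Vale.Agent.P157.Lv hiding Dep
open Vale.Agent.P146.H425 Vale.Agent.P146.H646
open Vale.Agent.P146.H325 hiding cb cf
open Vale.Agent.P146.H196 Vale.Agent.P146.H246 Vale.Agent.P146.H347
  Vale.Agent.P146.H816 Vale.Agent.P146.H119 Vale.Agent.P146.H475 Vale.Agent.P146.H418
  Vale.Agent.P146.H317 Vale.Agent.P146.H75 Vale.Agent.P146.H320 Vale.Agent.P146.H615

set_option linter.unusedSectionVars false

section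

variable {L : Law} {t u : ℝ}

/-- the mean at the shares `t`, `u` in the long notation -/
noncomputable abbrev eL (L : Law) (t u : ℝ) (f : (Co L.n Bool Bool → ℝ) → ℝ) : ℝ :=
  exS L.n L.b (H418.cb t) (H418.cf L.vp u) L.s L.η L.lam L.c L.x f

lemma ins_Sn {n m : ℕ} (h1 : 1 ≤ m) {i0 : Fin n} (hi : i0.1 + m = n) :
    insert i0 (Sn n m) = Sn n (m - 1) := SN_insert h1 hi

lemma sub_ins (m : ℕ) (n : ℕ) : Sn n m ⊆ Sn n (m - 1) := Sn_anti (by omega)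

/-- the rank number with one more row -/
lemma rkI_le (hA : Adm L) {m : ℕ} (hm : 1 ≤ m) {i0 : Fin L.n} (hi : i0.1 + m = L.n) :
    eL L t u (RKk L.n L.b (H418.cb t) (H418.cf L.vp u) L.s L.η L.lam L.c L.x (Sn L.n m)
        (Kset (insert i0 (Sn L.n m)) {true} {true})) ≤
      rkL L (H418.cb t) (H418.cf L.vp u) (Sn L.n (m - 1)) (Kset (Sn L.n (m - 1)) {true} {true}) /
        (L.n : ℝ) ^ 2 := by
  have hw : Wt (g1 (Co L.n Bool Bool)) (L.wt t u) := wt_L hA t u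
  have hn : (0 : ℝ) < L.n := by exact_mod_cast hA.n0
  rw [ins_Sn hm hi]
  have e1 : rkL L (H418.cb t) (H418.cf L.vp u) (Sn L.n (m - 1))
      (Kset (Sn L.n (m - 1)) {true} {true}) / (L.n : ℝ) ^ 2 =
      eL L t u (RKk L.n L.b (H418.cb t) (H418.cf L.vp u) L.s L.η L.lam L.c L.x (Sn L.n (m - 1))
        (Kset (Sn L.n (m - 1)) {true} {true})) := by
    rw [div_eq_inv_mul]
    unfold rkL exL eL exS
    rw [← H615.ex_cmul]
    congr 1
    funext z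
    unfold RKk
    rw [div_eq_inv_mul]
    rfl
  rw [e1]
  refine H615.ex_mono hw (bm_RKk hA.lam0 hA.η0 _ _) (bm_RKk hA.lam0 hA.η0 _ _) fun z => ?_
  unfold RKk
  refine div_le_div_of_nonneg_right ?_ (by positivity)
  unfold RKg
  have hsub := sub_ins m L.n
  refine (Finset.sum_le_sum fun i _ => Finset.sum_le_sum_of_subset_of_nonneg hsub
    fun _ _ _ => sq_nonneg _).trans ?_
  exact Finset.sum_le_sum_of_subset_of_nonneg hsub
    fun _ _ _ => Finset.sum_nonneg fun _ _ => sq_nonneg _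

/-- the covariances of the pairs with one more row -/
lemma k4I_le (hA : Adm L) {m : ℕ} (hm : 1 ≤ m) {i0 : Fin L.n} (hi : i0.1 + m = L.n) :
    eL L t u (K4v L.n L.b (H418.cb t) (H418.cf L.vp u) L.s L.η L.lam L.c L.x (Sn L.n m)
        (Kset (insert i0 (Sn L.n m)) {true} {true})) ≤
      rbL L (H418.cb t) (H418.cf L.vp u) (Sn L.n (m - 1)) (Kset (Sn L.n (m - 1)) {true} {true}) /
        (L.n : ℝ) ^ 4 := by
  have hw : Wt (g1 (Co L.n Bool Bool)) (L.wt t u) := wt_L hA t u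
  have hn : (0 : ℝ) < L.n := by exact_mod_cast hA.n0
  rw [ins_Sn hm hi]
  have e1 : rbL L (H418.cb t) (H418.cf L.vp u) (Sn L.n (m - 1))
      (Kset (Sn L.n (m - 1)) {true} {true}) / (L.n : ℝ) ^ 4 =
      eL L t u (K4v L.n L.b (H418.cb t) (H418.cf L.vp u) L.s L.η L.lam L.c L.x (Sn L.n (m - 1))
        (Kset (Sn L.n (m - 1)) {true} {true})) := by
    rw [div_eq_inv_mul]
    unfold rbL exL eL exS
    rw [← H615.ex_cmul]
    congr 1
    funext z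
    unfold K4v
    rw [div_eq_inv_mul]
    rfl
  rw [e1]
  refine H615.ex_mono hw (bm_K4v hA.lam0 hA.η0 _ _) (bm_K4v hA.lam0 hA.η0 _ _) fun z => ?_
  unfold K4v
  refine div_le_div_of_nonneg_right ?_ (by positivity)
  unfold H412.k4L
  have hsub : Pin (Sn L.n m) ⊆ Pin (Sn L.n (m - 1)) := by
    intro p hp
    rw [mem_Pin] at hp ⊢
    exact ⟨sub_ins m L.n hp.1, sub_ins m L.n hp.2⟩
  refine (Finset.sum_le_sum fun i _ => Finset.sum_le_sum_of_subset_of_nonneg hsub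
    fun _ _ _ => sq_nonneg _).trans ?_
  exact Finset.sum_le_sum_of_subset_of_nonneg hsub
    fun _ _ _ => Finset.sum_nonneg fun _ _ => sq_nonneg _

/-- the step of the overlap -/
lemma incI_eq (hA : Adm L) {m : ℕ} {i0 : Fin L.n} :
    eL L t u (Qk L.n L.b (H418.cb t) (H418.cf L.vp u) L.s L.η L.lam L.c L.x (Sn L.n m)
        (Kset (insert i0 (Sn L.n m)) {true} {true})) -
      eL L t u (Qk L.n L.b (H418.cb t) (H418.cf L.vp u) L.s L.η L.lam L.c L.x (Sn L.n m)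
        (Kset (Sn L.n m) {true} {true})) =
    incL L (H418.cb t) (H418.cf L.vp u) (Sn L.n m) (Kset (Sn L.n m) {true} {true})
      (Kset (insert i0 (Sn L.n m)) {true} {true}) / L.n := by
  have hw : Wt (g1 (Co L.n Bool Bool)) (L.wt t u) := wt_L hA t u
  have key : ∀ K : Finset (Co L.n Bool Bool),
      eL L t u (Qk L.n L.b (H418.cb t) (H418.cf L.vp u) L.s L.η L.lam L.c L.x (Sn L.n m) K) =
      (L.n : ℝ)⁻¹ * ∑ j ∈ Sn L.n m, exL L (H418.cb t) (H418.cf L.vp u) (fun z =>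
        cxL L (H418.cb t) (H418.cf L.vp u) K (fun w => al L.η w.1 * H325.sp w.2 j) z ^ 2) := by
    intro K
    have e : Qk L.n L.b (H418.cb t) (H418.cf L.vp u) L.s L.η L.lam L.c L.x (Sn L.n m) K =
        fun z => (L.n : ℝ)⁻¹ * ∑ j ∈ Sn L.n m,
          cxL L (H418.cb t) (H418.cf L.vp u) K (fun w => al L.η w.1 * H325.sp w.2 j) z ^ 2 := by
      funext z
      unfold Qk
      rw [div_eq_inv_mul]
    rw [e]
    unfold eL exS
    rw [H615.ex_cmul]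
    congr 1
    exact H615.ex_sum hw (Sn L.n m) fun j _ => bsq (bm_M hA.lam0 hA.η0 K j)
  rw [key, key]
  unfold incL
  rw [Finset.sum_sub_distrib, div_eq_inv_mul]
  ring

/-- the tail of the second moment with one more row -/
lemma indCC_le (hA : Adm L) {m : ℕ} (hm : 1 ≤ m) {i0 : Fin L.n} (hi : i0.1 + m = L.n) (r : ℝ) :
    eL L t u (H317.ind r (CCv L.n L.b (H418.cb t) (H418.cf L.vp u) L.s L.η L.lam L.c L.x (Sn L.n m)
        (Kset (insert i0 (Sn L.n m)) {true} {true}))) ≤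
      L.ex' t u (H317.ind r (H412.CC L (Sn L.n (m - 1)) t u)) := by
  have hw : Wt (g1 (Co L.n Bool Bool)) (L.wt t u) := wt_L hA t u
  have hn : (0 : ℝ) < L.n := by exact_mod_cast hA.n0
  rw [ins_Sn hm hi]
  have bC : BM (CCv L.n L.b (H418.cb t) (H418.cf L.vp u) L.s L.η L.lam L.c L.x (Sn L.n m)
      (Kset (Sn L.n (m - 1)) {true} {true})) := bm_CCv hA.lam0 hA.η0 _ _
  refine H615.ex_mono hw (bm_ind bC.meas r)
    (bm_ind (H412.bm_CC hA.lam0 hA.η0 (Sn L.n (m - 1)) t u).meas r) fun z => ?_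
  have h1 : CCv L.n L.b (H418.cb t) (H418.cf L.vp u) L.s L.η L.lam L.c L.x (Sn L.n m)
      (Kset (Sn L.n (m - 1)) {true} {true}) z ≤ H412.CC L (Sn L.n (m - 1)) t u z := by
    unfold CCv H412.CC
    refine div_le_div_of_nonneg_right ?_ (by positivity)
    unfold H412.m2L
    have hsub := sub_ins m L.n
    refine (Finset.sum_le_sum fun i _ => Finset.sum_le_sum_of_subset_of_nonneg hsub
      fun _ _ _ => sq_nonneg _).trans ?_
    exact Finset.sum_le_sum_of_subset_of_nonneg hsub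
      fun _ _ _ => Finset.sum_nonneg fun _ _ => sq_nonneg _
  unfold H317.ind
  by_cases hz : r < CCv L.n L.b (H418.cb t) (H418.cf L.vp u) L.s L.η L.lam L.c L.x (Sn L.n m)
      (Kset (Sn L.n (m - 1)) {true} {true}) z
  · rw [if_pos hz, if_pos (hz.trans_le h1)]
  · rw [if_neg hz]
    split_ifs <;> norm_num

/-- `NC3` is monotone -/
lemma NC3_mono {U η inc inc' k k' e e' p p' q q' r r' : ℝ} (hU : 0 < U) (h1 : inc ≤ inc')
    (h2 : k ≤ k') (h3 : e ≤ e') (hp : p ≤ p') (hq : q ≤ q') (hr : r ≤ r') :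
    NC3 U U U η inc k e p q r ≤ NC3 U U U η inc' k' e' p' q' r' := by
  unfold NC3
  have a1 : 0 ≤ 2 * η ^ 2 := by positivity
  have a2 : 4 * U * (2 * η ^ 2 * (U + q) + 2 * inc) ≤
      4 * U * (2 * η ^ 2 * (U + q') + 2 * inc') := by gcongr
  have a3 : 36 * (U ^ 2 / U) * (16 * (4 * U * (2 * η ^ 2 * (U + q) + 2 * inc) + 49 * (q + r)) +
      2 * k) ≤ 36 * (U ^ 2 / U) * (16 * (4 * U * (2 * η ^ 2 * (U + q') + 2 * inc') +
        49 * (q' + r')) + 2 * k') := by gcongr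
  have a4 : 8 * e / U ≤ 8 * e' / U := by gcongr
  have a5 : (2 * U ^ 3 + 2 * U ^ 4 / U) * p ≤ (2 * U ^ 3 + 2 * U ^ 4 / U) * p' := by gcongr
  have a6 : 5 / U * (q + r) ≤ 5 / U * (q' + r') := by gcongr
  linarith

/-- the coefficient of the second moment -/
noncomputable def c3n (b U A : ℝ) : ℝ :=
  6000000 * (9 / 4) * ((2 * b ^ 4 + 8 * b ^ 8) * (544 * U)) / A ^ 2

/-- the remainder -/
noncomputable def err3n (b kp U wf θ η inc rk k4 p q : ℝ) : ℝ :=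
  6 * (b ^ 2 * (U * θ ^ 2 + wf * (θ + kp * η) ^ 2)) +
  6000000 * (9 / 4) * ((2 * b ^ 4 + 8 * b ^ 8) * NC3 U U U η inc rk k4 p p p +
    (2 * b ^ 4 * wf ^ 2 * (q + U) + 8 * b ^ 8 * wf ^ 4 / U))

lemma NC3_nonneg {U η inc rk k4 p : ℝ} (hU : 0 < U) (h1 : 0 ≤ inc) (h2 : 0 ≤ rk) (h3 : 0 ≤ k4)
    (h4 : 0 ≤ p) : 0 ≤ NC3 U U U η inc rk k4 p p p := by
  unfold NC3
  positivity

lemma c3_pure {K a η b t U wf e0 N0 N1 X qs q A : ℝ} (hb : 0 < b) (hη : 0 ≤ η)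
    (hη1 : η ≤ 1 / 2) (ht0 : 0 ≤ t) (ht1 : t ≤ 1) (hU0 : 0 < U) (hwf0 : 0 ≤ wf) (hA : 0 < A)
    (hX : 0 ≤ X) (ha : a ≤ e0) (hN : N0 ≤ N1) (hN1 : 0 ≤ N1) (hqs : qs ≤ q) (hq0 : 0 ≤ q)
    (h : K ≤ a + 6000000 * (1 + η) ^ 2 * ((2 * b ^ 4 * t ^ 2 + 8 * b ^ 8 * t ^ 4) *
      ((528 * U + 16 * U) * X + 1 * N0) +
        1 * (2 * b ^ 4 * wf ^ 2 * (qs + U) + 8 * b ^ 8 * wf ^ 4 / U))) :
    K ≤ A ^ 2 * (c3n b U A * X) + (e0 + 6000000 * (9 / 4) *
      ((2 * b ^ 4 + 8 * b ^ 8) * N1 + (2 * b ^ 4 * wf ^ 2 * (q + U) + 8 * b ^ 8 * wf ^ 4 / U))) := by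
  have hη94 : (1 + η) ^ 2 ≤ 9 / 4 := by
    have h1 : 1 + η ≤ 3 / 2 := by linarith
    calc (1 + η) ^ 2 ≤ (3 / 2) ^ 2 := pow_le_pow_left₀ (by linarith) h1 2
      _ = 9 / 4 := by norm_num
  have t24 : 2 * b ^ 4 * t ^ 2 + 8 * b ^ 8 * t ^ 4 ≤ 2 * b ^ 4 + 8 * b ^ 8 := by
    have h2 : t ^ 2 ≤ 1 := pow_le_one₀ ht0 ht1
    have h4 : t ^ 4 ≤ 1 := pow_le_one₀ ht0 ht1
    have h5 : 2 * b ^ 4 * t ^ 2 ≤ 2 * b ^ 4 * 1 :=
      mul_le_mul_of_nonneg_left h2 (by positivity)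
    have h6 : 8 * b ^ 8 * t ^ 4 ≤ 8 * b ^ 8 * 1 :=
      mul_le_mul_of_nonneg_left h4 (by positivity)
    linarith
  have hT00 : 0 ≤ 2 * b ^ 4 * t ^ 2 + 8 * b ^ 8 * t ^ 4 := by positivity
  have h1 : (528 * U + 16 * U) * X + 1 * N0 ≤ 544 * U * X + N1 := by linarith
  have h2 : 0 ≤ 544 * U * X + N1 := by positivity
  have h3 : (2 * b ^ 4 * t ^ 2 + 8 * b ^ 8 * t ^ 4) * ((528 * U + 16 * U) * X + 1 * N0) ≤
      (2 * b ^ 4 + 8 * b ^ 8) * (544 * U * X + N1) :=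
    (mul_le_mul_of_nonneg_left h1 hT00).trans (mul_le_mul_of_nonneg_right t24 h2)
  have h4 : 1 * (2 * b ^ 4 * wf ^ 2 * (qs + U) + 8 * b ^ 8 * wf ^ 4 / U) ≤
      2 * b ^ 4 * wf ^ 2 * (q + U) + 8 * b ^ 8 * wf ^ 4 / U := by
    rw [one_mul]
    gcongr
  have h5 : 0 ≤ (2 * b ^ 4 + 8 * b ^ 8) * (544 * U * X + N1) +
      (2 * b ^ 4 * wf ^ 2 * (q + U) + 8 * b ^ 8 * wf ^ 4 / U) := by positivity
  have h6 : 6000000 * (1 + η) ^ 2 * ((2 * b ^ 4 * t ^ 2 + 8 * b ^ 8 * t ^ 4) *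
      ((528 * U + 16 * U) * X + 1 * N0) +
        1 * (2 * b ^ 4 * wf ^ 2 * (qs + U) + 8 * b ^ 8 * wf ^ 4 / U)) ≤
      6000000 * (9 / 4) * ((2 * b ^ 4 + 8 * b ^ 8) * (544 * U * X + N1) +
        (2 * b ^ 4 * wf ^ 2 * (q + U) + 8 * b ^ 8 * wf ^ 4 / U)) := by
    refine (mul_le_mul_of_nonneg_left (add_le_add h3 h4) (by positivity)).trans ?_
    exact mul_le_mul_of_nonneg_right (by linarith) h5
  have e : A ^ 2 * (c3n b U A * X) =
      6000000 * (9 / 4) * ((2 * b ^ 4 + 8 * b ^ 8) * (544 * U * X)) := by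
    unfold c3n
    field_simp
  rw [e]
  have e2 : 6000000 * (9 / 4) * ((2 * b ^ 4 + 8 * b ^ 8) * (544 * U * X + N1) +
        (2 * b ^ 4 * wf ^ 2 * (q + U) + 8 * b ^ 8 * wf ^ 4 / U)) =
      6000000 * (9 / 4) * ((2 * b ^ 4 + 8 * b ^ 8) * (544 * U * X)) +
      6000000 * (9 / 4) * ((2 * b ^ 4 + 8 * b ^ 8) * N1 +
        (2 * b ^ 4 * wf ^ 2 * (q + U) + 8 * b ^ 8 * wf ^ 4 / U)) := by ring
  rw [e2] at h6
  linarith

/-- **The cubic term, test function `1`.** -/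
theorem c3_one (hA : Adm L) (hη1 : L.η ≤ 1 / 2) (hs : L.s ≠ 0) (hx1 : L.x < 1) {r0 : ℝ}
    (hc : L.c = L.s ^ 2 * L.n * (1 - (1 - L.x) * r0)) (hk : 0 < 1 - (1 - L.x) * r0) {m : ℕ}
    (hm1 : 1 ≤ m) (hmn : m < L.n) (ht0 : 0 ≤ t) (ht1 : t ≤ 1) (hu0 : 0 ≤ u) {i0 : Fin L.n}
    (hi : i0.1 + m = L.n) {U θ : ℝ} (hU0 : 0 < U) (hU1 : U ≤ 1)
    (hUu : L.ex' t u (H412.CC L Finset.univ t u) ≤ U ^ 2)
    (hθ : 5 / √m + 2 * |L.lam / ((1 - L.x) * (L.s ^ 2 * L.n))| +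
      3 * ((|r0| + 1) * √(PstL L t u)) / √U ≤ θ)
    (hxb : L.x ^ 2 * (L.b ^ 2 * (t + u * L.vp / L.b ^ 2)) ≤ 1 / 4)
    {inc rk k4 p q : ℝ} (hinc0 : 0 ≤ inc) (hrk0 : 0 ≤ rk) (hk40 : 0 ≤ k4) (hp00 : 0 ≤ p)
    (hq0 : 0 ≤ q) (hinc : incL L (H418.cb t) (H418.cf L.vp u) (Sn L.n m) (Kset (Sn L.n m) {true} {true})
      (Kset (insert i0 (Sn L.n m)) {true} {true}) / L.n ≤ inc)
    (hrk : rkL L (H418.cb t) (H418.cf L.vp u) (Sn L.n (m - 1))
      (Kset (Sn L.n (m - 1)) {true} {true}) / (L.n : ℝ) ^ 2 ≤ rk)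
    (hk4 : rbL L (H418.cb t) (H418.cf L.vp u) (Sn L.n (m - 1))
      (Kset (Sn L.n (m - 1)) {true} {true}) / (L.n : ℝ) ^ 4 ≤ k4)
    (hp0 : L.ex' t u (H317.ind U (L.Q (Sn L.n m) t u)) ≤ p)
    (hp1 : L.ex' t u (H317.ind (U ^ 2) (H412.CC L (Sn L.n (m - 1)) t u)) ≤ p)
    (hq : L.ex' t u (L.Q (Sn L.n m) t u) ≤ q) :
    C3U L r0 (fun _ => 1) m t u i0 ≤
      (L.b * (1 - (1 - L.x) * r0)) ^ 2 * (c3n L.b U (L.b * (1 - (1 - L.x) * r0)) *
        L.qq (Sn L.n m) t u) +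
      err3n L.b (1 - (1 - L.x) * r0) U (u * L.vp / L.b ^ 2) θ L.η inc rk k4 p q := by
  have hw : Wt (g1 (Co L.n Bool Bool)) (L.wt t u) := wt_L hA t u
  have hn : (0 : ℝ) < L.n := by exact_mod_cast hA.n0
  have hb := hA.b0
  have hη := hA.η0
  have hvp := hA.vp0
  have hx0 := hA.x0
  have hi1 : i0 ∉ Sn L.n m := by
    simp only [Sn, Finset.mem_filter, Finset.mem_univ, true_and]
    omega
  have hne : ((Finset.univ : Finset (Fin L.n)) \ Sn L.n m).Nonempty :=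
    ⟨i0, Finset.mem_sdiff.2 ⟨Finset.mem_univ _, hi1⟩⟩
  set wf := u * L.vp / L.b ^ 2 with hwf
  set kp := 1 - (1 - L.x) * r0 with hkp
  have hwf0 : 0 ≤ wf := by rw [hwf]; positivity
  have key := c3v_le (n := L.n) (b := L.b) (cB := H418.cb t) (cF := H418.cf L.vp u) (s := L.s)
    (η := L.η) (lam := L.lam) (c := L.c) (x := L.x) (r0 := r0) hA.lam0 hη hη1 hs hx0 hx1 hA.n0
    hc (BL := {true}) (FL := {true}) (Finset.subset_univ (Sn L.n m)) hi1 hne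
    (φ := fun _ => 1) (fun _ _ => rfl) (BM.const 1) (fun _ => zero_le_one) (P0 := 1)
    (fun _ => le_rfl) (t := t) (wf := wf) (cb_true ht0) (cf_true hvp.le hu0 hb.ne') hxb
    (l0 := U) (U := U) (del := U) hU0 le_rfl hU0 le_rfl hU1
  -- the two linear errors
  have hP0 := Pst_nonneg (n := L.n) (b := L.b) (cB := H418.cb t) (cF := H418.cf L.vp u)
    (s := L.s) (c := L.c) (x := L.x) hA.lam0 hη
  have hD0 : (0 : ℝ) ≤ (m : ℝ) := Nat.cast_nonneg _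
  have hUu' : exS L.n L.b (H418.cb t) (H418.cf L.vp u) L.s L.η L.lam L.c L.x
      (H412.CCz L.n L.b (H418.cb t) (H418.cf L.vp u) L.s L.η L.lam L.c L.x
        (Kset Finset.univ {true} {true}) Finset.univ) ≤ U ^ 2 := by
    rw [ex_CC hA.lam0 hη]
    exact hUu
  have hθ0 : 0 ≤ θ := le_trans (by positivity) hθ
  have hR2S := sqrt_le_num (by positivity) (R2_le (b := L.b) (cB := H418.cb t)
    (cF := H418.cf L.vp u) (s := L.s) (c := L.c) (x := L.x) hA.lam0 hη {true} {true} hA.n0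
    (Sn L.n m) hUu')
  have hR2S1 := sqrt_le_num (by positivity) (R2_le (b := L.b) (cB := H418.cb t)
    (cF := H418.cf L.vp u) (s := L.s) (c := L.c) (x := L.x) hA.lam0 hη {true} {true} hA.n0
    Finset.univ hUu')
  have hcard : ((Finset.univ : Finset (Fin L.n)) \ Sn L.n m).card = m := card_hidden hmn.le
  have hd : d0 L.n L.b (H418.cb t) (H418.cf L.vp u) L.s L.η L.lam L.c L.x r0
      (Kset (Sn L.n m) {true} {true}) (Kset Finset.univ {true} {true})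
      ((Finset.univ : Finset (Fin L.n)) \ Sn L.n m).card / √L.n ≤ √U * θ := by
    rw [hcard]
    exact d0_core hη hη1 hx0 hn hP0 hD0 hU0 hR2S1 hR2S hθ
  have hd' : 0 ≤ d0 L.n L.b (H418.cb t) (H418.cf L.vp u) L.s L.η L.lam L.c L.x r0
      (Kset (Sn L.n m) {true} {true}) (Kset Finset.univ {true} {true})
      ((Finset.univ : Finset (Fin L.n)) \ Sn L.n m).card / √L.n := by
    refine div_nonneg ?_ (Real.sqrt_nonneg _)
    unfold d0
    exact add_nonneg (Real.sqrt_nonneg _) (mul_nonneg (by linarith) (Real.sqrt_nonneg _))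
  have hdf : H646.d0f L.n L.b (H418.cb t) (H418.cf L.vp u) L.s L.η L.lam L.c L.x r0
      ((Finset.univ : Finset (Fin L.n)) \ Sn L.n m).card ≤ θ + kp * L.η := by
    rw [hcard]
    unfold H646.d0f
    rw [← hkp, abs_of_nonneg hk.le]
    exact add_le_add (df_core hη hη1 hx0 hP0 hD0 hU0 hU1 hθ) le_rfl
  have hdf' : 0 ≤ H646.d0f L.n L.b (H418.cb t) (H418.cf L.vp u) L.s L.η L.lam L.c L.x r0
      ((Finset.univ : Finset (Fin L.n)) \ Sn L.n m).card := by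
    unfold H646.d0f
    exact add_nonneg (add_nonneg (Real.sqrt_nonneg _)
      (mul_nonneg (by linarith) (Real.sqrt_nonneg _))) (mul_nonneg (abs_nonneg _) hη)
  have hd2 := pow_le_pow_left₀ hd' hd 2
  have hdf2 := pow_le_pow_left₀ hdf' hdf 2
  rw [mul_pow, Real.sq_sqrt hU0.le] at hd2
  have a1 : 6 * (1 * (L.b ^ 2 * (t * (d0 L.n L.b (H418.cb t) (H418.cf L.vp u) L.s L.η L.lam L.c
      L.x r0 (Kset (Sn L.n m) {true} {true}) (Kset Finset.univ {true} {true})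
      ((Finset.univ : Finset (Fin L.n)) \ Sn L.n m).card / √L.n) ^ 2 +
      wf * H646.d0f L.n L.b (H418.cb t) (H418.cf L.vp u) L.s L.η L.lam L.c L.x r0
      ((Finset.univ : Finset (Fin L.n)) \ Sn L.n m).card ^ 2))) ≤
      6 * (L.b ^ 2 * (U * θ ^ 2 + wf * (θ + kp * L.η) ^ 2)) := by
    rw [one_mul]
    refine mul_le_mul_of_nonneg_left (mul_le_mul_of_nonneg_left (add_le_add ?_ ?_)
      (by positivity)) (by norm_num)
    · refine le_trans (mul_le_of_le_one_left (sq_nonneg _) ht1) hd2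
    · exact mul_le_mul_of_nonneg_left hdf2 hwf0
  -- the cube term
  have hN : NC3 U U U L.η (eL L t u (Qk L.n L.b (H418.cb t) (H418.cf L.vp u) L.s L.η L.lam L.c
      L.x (Sn L.n m) (Kset (insert i0 (Sn L.n m)) {true} {true})) - eL L t u (Qk L.n L.b
      (H418.cb t) (H418.cf L.vp u) L.s L.η L.lam L.c L.x (Sn L.n m)
      (Kset (Sn L.n m) {true} {true}))) (eL L t u (RKk L.n L.b (H418.cb t) (H418.cf L.vp u) L.s
      L.η L.lam L.c L.x (Sn L.n m) (Kset (insert i0 (Sn L.n m)) {true} {true})))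
      (eL L t u (K4v L.n L.b (H418.cb t) (H418.cf L.vp u) L.s
      L.η L.lam L.c L.x (Sn L.n m) (Kset (insert i0 (Sn L.n m)) {true} {true})))
      (eL L t u (H317.ind U (Qk L.n L.b (H418.cb t) (H418.cf L.vp u) L.s L.η L.lam L.c L.x
        (Sn L.n m) (Kset (Sn L.n m) {true} {true}))))
      (eL L t u (H317.ind (U ^ 2) (CCv L.n L.b (H418.cb t) (H418.cf L.vp u) L.s L.η L.lam L.c
        L.x (Sn L.n m) (Kset (insert i0 (Sn L.n m)) {true} {true}))))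
      (eL L t u (H317.ind U (Qk L.n L.b (H418.cb t) (H418.cf L.vp u) L.s L.η L.lam L.c L.x
        (Sn L.n m) (Kset (Sn L.n m) {true} {true})))) ≤ NC3 U U U L.η inc rk k4 p p p := by
    refine NC3_mono hU0 ?_ ((rkI_le hA hm1 hi).trans hrk) ((k4I_le hA hm1 hi).trans hk4) hp0
      ((indCC_le hA hm1 hi _).trans hp1) hp0
    rw [incI_eq hA]
    exact hinc
  have e1 : L.qq (Sn L.n m) t u = exS L.n L.b (H418.cb t) (H418.cf L.vp u) L.s L.η L.lam L.c L.x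
      (fun z => (fun _ => (1 : ℝ)) z * Qv L.n L.b (H418.cb t) (H418.cf L.vp u) L.s L.η L.lam L.c
        L.x (Sn L.n m) {true} {true} z ^ 2) := by
    simp only [one_mul]
    rfl
  have e2 : C3U L r0 (fun _ => 1) m t u i0 = C3v L.n L.b (H418.cb t) (H418.cf L.vp u) L.s L.η
      L.lam L.c L.x (1 - (1 - L.x) * r0) (Sn L.n m) {true} {true} i0 (fun _ => 1) := rfl
  rw [← e1, ← e2] at key
  have hq' : eL L t u (Qk L.n L.b (H418.cb t) (H418.cf L.vp u) L.s L.η L.lam L.c L.x (Sn L.n m)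
      (Kset (Sn L.n m) {true} {true})) ≤ q := hq
  have hqq0 : 0 ≤ L.qq (Sn L.n m) t u := H615.ex_nonneg hw fun z => sq_nonneg _
  have hkb : 0 < L.b * (1 - (1 - L.x) * r0) := mul_pos hb hk
  exact c3_pure hb hη hη1 ht0 ht1 hU0 hwf0 hkb hqq0 a1 hN
    (NC3_nonneg hU0 hinc0 hrk0 hk40 hp00) hq' hq0 key

end

end Vale.Agent.P146.H643.LC
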