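import Vale.Agent.P146.H643.LcPure
import Vale.Agent.P146.H470.LcA
import Vale.Agent.P146.H412.K8S

/-!
# P146: the numbers of the far zone of LC
-/

open Filter Set

namespace Vale.Agent.P146.H643.LC

open Vale.Agent.P146.H470 (LcE lcE_ev le_of_log log_c uP uQ TL DL mL uP_mem)
open Vale.Agent.P146.H412 (Cp)
open Vale.Agent.P146.H75 (sL lamL etaL)

/-- the constants of the far zone -/
noncomputable def Kfar (b c0 A : ℝ) : ℝ :=
  100 * (|Real.log b| + |Real.log A| + |Real.log (Cf b c0)| + |Real.log (a4c b c0)| +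
    |Real.log (Cp 1)| + |Real.log (Cp 2)| + |Real.log (3 + 4 / b)|) + 10000

/-- the window of the far zone -/
structure FW (b c0 A b₁ b₀ q : ℝ) (n : ℕ) (y V : ℝ) : Prop where
  env : LcE b₁ b₀ (23 * q) q (Kfar b c0 A) n y V
  hb : 0 < b
  hc : 0 < c0
  hA : 1 ≤ A
  hq : 0 < q
  bq : 100 * q ≤ b₀
  bb : b₀ ≤ b₁
  b1 : b₁ ≤ 1 / 100

/-- the a priori size -/
noncomputable def Uf (q : ℝ) (n : ℕ) (y T : ℝ) : ℝ := (n : ℝ) ^ q * y ^ 2 / √T

section num

variable {b c0 A b₁ b₀ q : ℝ} {n : ℕ} {y V T a : ℝ}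

lemma FW.facts (h : FW b c0 A b₁ b₀ q n y V) :
    0 < q * Real.log n ∧ 10000 ≤ q / 100 * Real.log n ∧
      100 * (q * Real.log n) ≤ b₀ * Real.log n ∧ b₀ * Real.log n ≤ b₁ * Real.log n ∧
      b₁ * Real.log n ≤ 1 / 100 * Real.log n ∧
      -(b₁ * Real.log n) - q / 100 * Real.log n ≤ Real.log y ∧
      Real.log y ≤ -(b₀ * Real.log n) + q / 100 * Real.log n ∧
      5 * Real.log y - q / 100 * Real.log n ≤ Real.log V ∧
      Real.log V ≤ -(23 * (q * Real.log n)) + 3 * Real.log y + q / 100 * Real.log n := by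
  have e := h.env
  have hL := e.L1
  have hc := e.cst
  have k : (10000 : ℝ) ≤ Kfar b c0 A := by
    unfold Kfar
    have : 0 ≤ |Real.log b| + |Real.log A| + |Real.log (Cf b c0)| + |Real.log (a4c b c0)| +
      |Real.log (Cp 1)| + |Real.log (Cp 2)| + |Real.log (3 + 4 / b)| := by positivity
    linarith
  have m1 : (100 * q) * Real.log n ≤ b₀ * Real.log n :=
    mul_le_mul_of_nonneg_right h.bq (by linarith)
  have m2 : b₀ * Real.log n ≤ b₁ * Real.log n := mul_le_mul_of_nonneg_right h.bb (by linarith)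
  have m3 : b₁ * Real.log n ≤ 1 / 100 * Real.log n :=
    mul_le_mul_of_nonneg_right h.b1 (by linarith)
  have yl := e.yl
  have yu := e.yu
  have Vl := e.Vl
  have Vu := e.Vu
  exact ⟨e.qL, by linarith, by linarith, m2, m3, by linarith, by linarith, Vl, by linarith⟩

lemma FW.cst (h : FW b c0 A b₁ b₀ q n y V) :
    Real.log b ≤ q / 10000 * Real.log n ∧ -Real.log b ≤ q / 10000 * Real.log n ∧
      Real.log A ≤ q / 10000 * Real.log n ∧ Real.log (Cf b c0) ≤ q / 10000 * Real.log n ∧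
      Real.log (a4c b c0) ≤ q / 10000 * Real.log n ∧
      Real.log (Cp 1) ≤ q / 10000 * Real.log n ∧ Real.log (Cp 2) ≤ q / 10000 * Real.log n ∧
      Real.log (3 + 4 / b) ≤ q / 10000 * Real.log n := by
  have hc := h.env.cst
  unfold Kfar at hc
  have a1 := abs_nonneg (Real.log b)
  have a2 := abs_nonneg (Real.log A)
  have a3 := abs_nonneg (Real.log (Cf b c0))
  have a4 := abs_nonneg (Real.log (a4c b c0))
  have a5 := abs_nonneg (Real.log (Cp 1))
  have a6 := abs_nonneg (Real.log (Cp 2))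
  have a7 := abs_nonneg (Real.log (3 + 4 / b))
  have b1 := le_abs_self (Real.log b)
  have b1' := neg_abs_le (Real.log b)
  have b2 := le_abs_self (Real.log A)
  have b3 := le_abs_self (Real.log (Cf b c0))
  have b4 := le_abs_self (Real.log (a4c b c0))
  have b5 := le_abs_self (Real.log (Cp 1))
  have b6 := le_abs_self (Real.log (Cp 2))
  have b7 := le_abs_self (Real.log (3 + 4 / b))
  refine ⟨?_, ?_, ?_, ?_, ?_, ?_, ?_, ?_⟩ <;> linarith

lemma Cp_pos (p : ℕ) : 0 < Cp p := by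
  unfold Cp
  positivity

lemma Cf_pos {b c0 : ℝ} (hb : 0 < b) (hc : 0 < c0) : 0 < Cf b c0 := by
  obtain ⟨n1, n2, n3, n4⟩ := a_nonneg hb hc
  unfold Cf
  positivity

lemma a4c_pos {b c0 : ℝ} (hb : 0 < b) (hc : 0 < c0) : 0 < a4c b c0 := by
  unfold a4c
  positivity

/-- the logarithm of the share -/
lemma FW.tf (h : FW b c0 A b₁ b₀ q n y V) (hT : TL q n y / 4 ≤ T) (hT1 : T ≤ 1) :
    0 < T ∧ -(q * Real.log n) + 2 * Real.log y - Real.log 4 ≤ Real.log T ∧
      Real.log T ≤ 0 := by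
  have hn := h.env.n0
  have hy := h.env.y0
  have h0 : 0 < TL q n y / 4 := by
    unfold TL
    positivity
  have hT0 : 0 < T := h0.trans_le hT
  refine ⟨hT0, ?_, Real.log_nonpos hT0.le hT1⟩
  have h1 := Real.log_le_log h0 hT
  unfold TL at h1
  simp (disch := positivity) only [Real.log_div, Real.log_mul, Real.log_rpow, Real.log_pow] at h1
  push_cast at h1
  linarith

lemma FW.Uf_pos (h : FW b c0 A b₁ b₀ q n y V) (hT0 : 0 < T) : 0 < Uf q n y T := by
  have hn := h.env.n0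
  have hy := h.env.y0
  unfold Uf
  positivity

lemma FW.log_Uf (h : FW b c0 A b₁ b₀ q n y V) (hT0 : 0 < T) :
    Real.log (Uf q n y T) = q * Real.log n + 2 * Real.log y - Real.log T / 2 := by
  have hn := h.env.n0
  have hy := h.env.y0
  unfold Uf
  simp (disch := positivity) only [Real.log_div, Real.log_mul, Real.log_rpow, Real.log_pow,
    Real.log_sqrt]
  push_cast
  ring

lemma FW.Uf_le (h : FW b c0 A b₁ b₀ q n y V) (hT : TL q n y / 4 ≤ T) (hT1 : T ≤ 1) :
    Uf q n y T ≤ 1 := by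
  obtain ⟨f1, f2, f3, f4, f5, f6, f7, f8, f9⟩ := h.facts
  obtain ⟨t1, t2, t3⟩ := h.tf hT hT1
  refine le_of_log (h.Uf_pos t1) one_pos ?_
  rw [h.log_Uf t1, Real.log_one]
  have := log_c 4 (by norm_num)
  linarith

/-- `E` -/
lemma FW.E_le (h : FW b c0 A b₁ b₀ q n y V) : (n : ℝ) ^ (-(1 / 20) : ℝ) ≤ 1 / 2 := by
  obtain ⟨f1, f2, f3, f4, f5, f6, f7, f8, f9⟩ := h.facts
  have hn := h.env.n0
  have := log_c 2 (by norm_num)
  refine le_of_log (by positivity) (by positivity) ?_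
  simp (disch := positivity) only [Real.log_div, Real.log_rpow, Real.log_one]
  linarith

lemma FW.eta_le (h : FW b c0 A b₁ b₀ q n y V) :
    etaL (1 / 4) n ≤ (n : ℝ) ^ (-(1 / 20) : ℝ) := by
  have hn := h.env.n0
  have hL := h.env.L1
  unfold etaL
  refine le_of_log (by positivity) (by positivity) ?_
  simp (disch := positivity) only [Real.log_rpow]
  linarith

lemma FW.y_le (h : FW b c0 A b₁ b₀ q n y V) :
    y ≤ 1 / 4 ∧ 8 * (y ^ 2 * b ^ 2) ≤ 1 ∧ V ≤ 1 ∧ (n : ℝ) ^ (-(1 / 6) + 1 / 20 : ℝ) ≤ y := by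
  obtain ⟨f1, f2, f3, f4, f5, f6, f7, f8, f9⟩ := h.facts
  obtain ⟨c1, c2, c3, c4, c5, c6, c7, c8⟩ := h.cst
  have hn := h.env.n0
  have hy := h.env.y0
  have hV := h.env.V0
  have hb := h.hb
  have k4 := log_c 4 (by norm_num)
  have k8 := log_c 8 (by norm_num)
  refine ⟨?_, ?_, ?_, ?_⟩
  · refine le_of_log (by positivity) (by positivity) ?_
    simp (disch := positivity) only [Real.log_div, Real.log_one]
    linarith
  · refine le_of_log (by positivity) (by positivity) ?_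
    simp (disch := positivity) only [Real.log_mul, Real.log_pow, Real.log_one]
    push_cast
    linarith
  · refine le_of_log (by positivity) (by positivity) ?_
    rw [Real.log_one]
    linarith
  · refine le_of_log (by positivity) (by positivity) ?_
    rw [Real.log_rpow hn]
    linarith

lemma FW.vU (h : FW b c0 A b₁ b₀ q n y V) (hT : TL q n y / 4 ≤ T) (hT1 : T ≤ 1) {vp : ℝ}
    (hvp : vp ≤ V) : vp / b ^ 2 ≤ Uf q n y T := by
  obtain ⟨f1, f2, f3, f4, f5, f6, f7, f8, f9⟩ := h.facts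
  obtain ⟨c1, c2, c3, c4, c5, c6, c7, c8⟩ := h.cst
  obtain ⟨t1, t2, t3⟩ := h.tf hT hT1
  have hV := h.env.V0
  have hb := h.hb
  have h1 : vp / b ^ 2 ≤ V / b ^ 2 := div_le_div_of_nonneg_right hvp (by positivity)
  refine h1.trans (le_of_log (by positivity) (h.Uf_pos t1) ?_)
  rw [h.log_Uf t1]
  simp (disch := positivity) only [Real.log_div, Real.log_pow]
  push_cast
  linarith

lemma FW.mom1 (h : FW b c0 A b₁ b₀ q n y V) (hT0 : 0 < T) :
    Cp 1 * (4 * ((n : ℝ) ^ (3 / 2 * q) * y ^ 4) / (b ^ 2 * T)) ^ 1 ≤ Uf q n y T ^ 2 := by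
  obtain ⟨f1, f2, f3, f4, f5, f6, f7, f8, f9⟩ := h.facts
  obtain ⟨c1, c2, c3, c4, c5, c6, c7, c8⟩ := h.cst
  have hn := h.env.n0
  have hy := h.env.y0
  have hb := h.hb
  have hp := Cp_pos 1
  have hU := h.Uf_pos hT0
  have k4 := log_c 4 (by norm_num)
  rw [pow_one]
  refine le_of_log (by positivity) (by positivity) ?_
  rw [Real.log_pow, h.log_Uf hT0]
  simp (disch := positivity) only [Real.log_div, Real.log_mul, Real.log_pow, Real.log_rpow]
  push_cast
  linarith

lemma FW.mom2 (h : FW b c0 A b₁ b₀ q n y V) (hT0 : 0 < T) :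
    Cp 2 * (4 * ((n : ℝ) ^ (3 / 2 * q) * y ^ 4) / (b ^ 2 * T)) ^ 2 ≤ Uf q n y T ^ 4 := by
  obtain ⟨f1, f2, f3, f4, f5, f6, f7, f8, f9⟩ := h.facts
  obtain ⟨c1, c2, c3, c4, c5, c6, c7, c8⟩ := h.cst
  have hn := h.env.n0
  have hy := h.env.y0
  have hb := h.hb
  have hp := Cp_pos 2
  have hU := h.Uf_pos hT0
  have k4 := log_c 4 (by norm_num)
  refine le_of_log (by positivity) (by positivity) ?_
  rw [Real.log_pow, h.log_Uf hT0]
  simp (disch := positivity) only [Real.log_div, Real.log_mul, Real.log_pow, Real.log_rpow]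
  push_cast
  linarith

/-- the size of `θ` -/
lemma FW.th (h : FW b c0 A b₁ b₀ q n y V) (hT : TL q n y / 4 ≤ T) (hT1 : T ≤ 1) {m : ℕ}
    (hm : (n : ℝ) ^ (1 - q - 40 * q) * y ^ 2 ≤ m) {r0 P : ℝ} (hr : |r0| + 1 ≤ 3 + 4 / b)
    (hP : P ≤ (n : ℝ) ^ (-2 : ℝ)) :
    5 / √m + 2 * |lamL q (1 / 4) n y / ((1 - y) * (sL (1 / 10) n y ^ 2 * n))| +
      3 * ((|r0| + 1) * √P) / √(Uf q n y T) ≤ (n : ℝ) ^ (-(1 / 20) : ℝ) := by
  obtain ⟨f1, f2, f3, f4, f5, f6, f7, f8, f9⟩ := h.facts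
  obtain ⟨c1, c2, c3, c4, c5, c6, c7, c8⟩ := h.cst
  obtain ⟨t1, t2, t3⟩ := h.tf hT hT1
  obtain ⟨y1, y2, y3, y4⟩ := h.y_le
  have hn := h.env.n0
  have hy := h.env.y0
  have hb := h.hb
  have hU := h.Uf_pos t1
  have k4 := log_c 4 (by norm_num)
  have k15 := log_c 15 (by norm_num)
  have k9 := log_c 9 (by norm_num)
  have k12 := log_c 12 (by norm_num)
  have k3 := log_c 3 (by norm_num)
  have hL3 : (0 : ℝ) ≤ Real.log 3 := Real.log_nonneg (by norm_num)
  have hm0 : (0 : ℝ) < m := lt_of_lt_of_le (by positivity) hm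
  have lm := Real.log_le_log (by positivity) hm
  simp (disch := positivity) only [Real.log_mul, Real.log_rpow, Real.log_pow] at lm
  push_cast at lm
  have s1 : 5 / √m ≤ (n : ℝ) ^ (-(1 / 20) : ℝ) / 3 := by
    have k5 := log_c 5 (by norm_num)
    refine le_of_log (by positivity) (by positivity) ?_
    simp (disch := positivity) only [Real.log_div, Real.log_rpow, Real.log_sqrt]
    linarith
  have s2 : 2 * |lamL q (1 / 4) n y / ((1 - y) * (sL (1 / 10) n y ^ 2 * n))| ≤
      (n : ℝ) ^ (-(1 / 20) : ℝ) / 3 := by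
    have hs2 : sL (1 / 10) n y ^ 2 = (n : ℝ) ^ (-(1 / 10) : ℝ) * y ^ 5 := by
      unfold sL
      rw [Real.sq_sqrt (by positivity)]
    have hl : 0 < lamL q (1 / 4) n y := by
      unfold lamL
      positivity
    have hy' : 0 < 1 - y := by linarith
    rw [hs2, abs_of_pos (by positivity)]
    have h1 : 2 * (lamL q (1 / 4) n y / ((1 - y) * ((n : ℝ) ^ (-(1 / 10) : ℝ) * y ^ 5 * n))) ≤
        4 * (lamL q (1 / 4) n y / ((n : ℝ) ^ (-(1 / 10) : ℝ) * y ^ 5 * n)) := by
      have h2 : lamL q (1 / 4) n y / ((1 - y) * ((n : ℝ) ^ (-(1 / 10) : ℝ) * y ^ 5 * n)) ≤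
          lamL q (1 / 4) n y / (1 / 2 * ((n : ℝ) ^ (-(1 / 10) : ℝ) * y ^ 5 * n)) := by
        refine div_le_div_of_nonneg_left hl.le (by positivity) ?_
        refine mul_le_mul_of_nonneg_right (by linarith) (by positivity)
      have h3 : lamL q (1 / 4) n y / (1 / 2 * ((n : ℝ) ^ (-(1 / 10) : ℝ) * y ^ 5 * n)) =
          2 * (lamL q (1 / 4) n y / ((n : ℝ) ^ (-(1 / 10) : ℝ) * y ^ 5 * n)) := by
        field_simp
      rw [h3] at h2
      linarith
    refine h1.trans (le_of_log (by positivity) (by positivity) ?_)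
    unfold lamL
    simp (disch := positivity) only [Real.log_div, Real.log_mul, Real.log_pow, Real.log_rpow]
    push_cast
    linarith
  have s3 : 3 * ((|r0| + 1) * √P) / √(Uf q n y T) ≤ (n : ℝ) ^ (-(1 / 20) : ℝ) / 3 := by
    have h1 : 3 * ((|r0| + 1) * √P) / √(Uf q n y T) ≤
        3 * ((3 + 4 / b) * √((n : ℝ) ^ (-2 : ℝ))) / √(Uf q n y T) := by
      gcongr
    refine h1.trans (le_of_log (by positivity) (by positivity) ?_)
    simp (disch := positivity) only [Real.log_div, Real.log_mul, Real.log_rpow, Real.log_sqrt]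
    rw [h.log_Uf t1]
    linarith
  linarith

/-- the rank number -/
lemma FW.rkn (h : FW b c0 A b₁ b₀ q n y V) {vp du : ℝ} (hvp : V / 2 ≤ vp)
    (hdu : (n : ℝ) ^ (-q) / 2 ≤ du) :
    6 / (n * (y ^ 2 * vp * du)) ≤ ((n : ℝ) ^ (-(1 / 20) : ℝ)) ^ 2 := by
  obtain ⟨f1, f2, f3, f4, f5, f6, f7, f8, f9⟩ := h.facts
  have hn := h.env.n0
  have hy := h.env.y0
  have hV := h.env.V0
  have k24 := log_c 24 (by norm_num)
  have h1 : 6 / (n * (y ^ 2 * vp * du)) ≤ 24 / (n * (y ^ 2 * V * (n : ℝ) ^ (-q))) := by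
    rw [div_le_div_iff₀ (by
      have h2 : 0 < vp := by linarith
      have h3 : 0 < du := lt_of_lt_of_le (by positivity) hdu
      positivity) (by positivity)]
    have h4 : V / 2 * ((n : ℝ) ^ (-q) / 2) ≤ vp * du :=
      mul_le_mul hvp hdu (by positivity) (by linarith)
    have h5 := mul_le_mul_of_nonneg_left h4 (show 0 ≤ 24 * (n : ℝ) * y ^ 2 by positivity)
    linarith
  refine h1.trans (le_of_log (by positivity) (by positivity) ?_)
  simp (disch := positivity) only [Real.log_div, Real.log_mul, Real.log_pow, Real.log_rpow]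
  push_cast
  linarith

/-- the covariances of the pairs -/
lemma FW.k4n (h : FW b c0 A b₁ b₀ q n y V) (hT : TL q n y / 4 ≤ T) (hT1 : T ≤ 1) :
    6 / (n * (y ^ 2 * b ^ 2 * (1 * (T / (1 + 1))))) ≤
      (n : ℝ) ^ (-(1 / 20) : ℝ) * Uf q n y T := by
  obtain ⟨f1, f2, f3, f4, f5, f6, f7, f8, f9⟩ := h.facts
  obtain ⟨c1, c2, c3, c4, c5, c6, c7, c8⟩ := h.cst
  obtain ⟨t1, t2, t3⟩ := h.tf hT hT1
  have hn := h.env.n0
  have hy := h.env.y0
  have hb := h.hb
  have hU := h.Uf_pos t1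
  have k4 := log_c 4 (by norm_num)
  have k12 := log_c 12 (by norm_num)
  have e : 6 / (n * (y ^ 2 * b ^ 2 * (1 * (T / (1 + 1))))) = 12 / (n * (y ^ 2 * b ^ 2 * T)) := by
    field_simp
    norm_num
  rw [e]
  refine le_of_log (by positivity) (by positivity) ?_
  rw [Real.log_mul (by positivity) (by positivity), h.log_Uf t1]
  simp (disch := positivity) only [Real.log_div, Real.log_mul, Real.log_pow, Real.log_rpow]
  push_cast
  linarith

/-- the increment -/
lemma FW.incn (h : FW b c0 A b₁ b₀ q n y V) {M : ℝ}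
    (hM : (n : ℝ) ^ (1 - q - 40 * q) * y ^ 2 ≤ M) :
    14 / M ≤ (n : ℝ) ^ (-(1 / 20) : ℝ) / 2 := by
  obtain ⟨f1, f2, f3, f4, f5, f6, f7, f8, f9⟩ := h.facts
  have hn := h.env.n0
  have hy := h.env.y0
  have k28 := log_c 28 (by norm_num)
  have h1 : 14 / M ≤ 14 / ((n : ℝ) ^ (1 - q - 40 * q) * y ^ 2) :=
    div_le_div_of_nonneg_left (by norm_num) (by positivity) hM
  have h2 : 14 / ((n : ℝ) ^ (1 - q - 40 * q) * y ^ 2) =
      28 / ((n : ℝ) ^ (1 - q - 40 * q) * y ^ 2) / 2 := by ring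
  rw [h2] at h1
  refine h1.trans (div_le_div_of_nonneg_right (le_of_log (by positivity) (by positivity) ?_)
    (by norm_num))
  simp (disch := positivity) only [Real.log_div, Real.log_mul, Real.log_pow, Real.log_rpow]
  push_cast
  linarith

/-- the tails -/
lemma FW.tln (h : FW b c0 A b₁ b₀ q n y V) (hT : TL q n y / 4 ≤ T) (hT1 : T ≤ 1) :
    (n : ℝ) ^ (-1 : ℝ) ≤ (n : ℝ) ^ (-(1 / 20) : ℝ) * Uf q n y T := by
  obtain ⟨f1, f2, f3, f4, f5, f6, f7, f8, f9⟩ := h.facts
  obtain ⟨t1, t2, t3⟩ := h.tf hT hT1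
  have hn := h.env.n0
  have hU := h.Uf_pos t1
  refine le_of_log (by positivity) (by positivity) ?_
  rw [Real.log_mul (by positivity) (by positivity), h.log_Uf t1]
  simp (disch := positivity) only [Real.log_rpow]
  linarith

/-- `m2 ≤ n / 2` -/
lemma FW.mLn (h : FW b c0 A b₁ b₀ q n y V) :
    2 * mL q (40 * q) n y ≤ n ∧ 1 ≤ ⌈(n : ℝ) ^ (1 - q - 40 * q) * y ^ 2⌉₊ := by
  obtain ⟨f1, f2, f3, f4, f5, f6, f7, f8, f9⟩ := h.facts
  have hn := h.env.n0
  have hy := h.env.y0
  have k8 := log_c 8 (by norm_num)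
  have k1 : 1 ≤ (n : ℝ) ^ (1 - q - 40 * q) * y ^ 2 := by
    refine le_of_log (by positivity) (by positivity) ?_
    simp (disch := positivity) only [Real.log_mul, Real.log_rpow, Real.log_pow, Real.log_one]
    push_cast
    linarith
  have k2 := (Nat.ceil_lt_add_one (show 0 ≤ (n : ℝ) ^ (1 - q - 40 * q) * y ^ 2 by positivity)).le
  have k3 : 8 * ((n : ℝ) ^ (1 - q - 40 * q) * y ^ 2) ≤ n := by
    refine le_of_log (by positivity) (by positivity) ?_
    simp (disch := positivity) only [Real.log_mul, Real.log_rpow, Real.log_pow]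
    push_cast
    linarith
  constructor
  · have k4 : ((2 * mL q (40 * q) n y : ℕ) : ℝ) ≤ n := by
      unfold mL
      push_cast
      linarith
    exact_mod_cast k4
  · exact Nat.one_le_iff_ne_zero.2 (Nat.ceil_pos.2 (by positivity)).ne'

/-- the slope is at most one -/
lemma FW.a_le (h : FW b c0 A b₁ b₀ q n y V) (ha : a ≤ A * ((n : ℝ) ^ (-(10 * q)) * y ^ 2)) :
    1 + a ≤ 2 := by
  obtain ⟨f1, f2, f3, f4, f5, f6, f7, f8, f9⟩ := h.facts
  obtain ⟨c1, c2, c3, c4, c5, c6, c7, c8⟩ := h.cst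
  have hn := h.env.n0
  have hy := h.env.y0
  have hA : 0 < A := by linarith [h.hA]
  have h1 : A * ((n : ℝ) ^ (-(10 * q)) * y ^ 2) ≤ 1 := by
    refine le_of_log (by positivity) (by positivity) ?_
    simp (disch := positivity) only [Real.log_mul, Real.log_rpow, Real.log_pow, Real.log_one]
    push_cast
    linarith
  linarith

/-- the mass -/
noncomputable def a1f (a : ℝ) : ℝ := 1 - 1 / (1 + a) ^ 2

lemma a1f_le (ha : 0 < 1 + a) : a1f a ≤ 2 * a := by
  have h1 : 0 < (1 + a) ^ 2 := by positivity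
  have e : a1f a - 2 * a = -(a ^ 2 * (2 * (1 + a) + 1) / (1 + a) ^ 2) := by
    unfold a1f
    field_simp
    ring
  have h2 : 0 ≤ a ^ 2 * (2 * (1 + a) + 1) / (1 + a) ^ 2 := by
    have : 0 ≤ 2 * (1 + a) + 1 := by linarith
    positivity
  linarith

/-- **The mass in the far zone.** -/
lemma FW.mass (h : FW b c0 A b₁ b₀ q n y V) (hT : TL q n y / 4 ≤ T) (hT1 : T ≤ 1)
    (ha : a ≤ A * ((n : ℝ) ^ (-(10 * q)) * y ^ 2)) (ha0 : 0 < 1 + a)
    (hz : (n : ℝ) ^ (6 * q) * y ^ 2 / 2 ≤ T ∨ a ≤ -((n : ℝ) ^ (4 * q) * y ^ 2)) :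
    0 < T - a1f a ∧ T ≤ 2 * (T - a1f a) ∧
      a4c b c0 * Uf q n y T ^ 2 ≤ (T - a1f a) / 2 ∧
      T * Uf q n y T ≤ 3 * ((n : ℝ) ^ (-q) * y) * (T - a1f a) := by
  obtain ⟨f1, f2, f3, f4, f5, f6, f7, f8, f9⟩ := h.facts
  obtain ⟨c1, c2, c3, c4, c5, c6, c7, c8⟩ := h.cst
  obtain ⟨t1, t2, t3⟩ := h.tf hT hT1
  have hn := h.env.n0
  have hy := h.env.y0
  have hU := h.Uf_pos t1
  have ha4 := a4c_pos h.hb h.hc
  have hA : 0 < A := by linarith [h.hA]
  have k4 := log_c 4 (by norm_num)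
  have k8 := log_c 8 (by norm_num)
  have k2 := log_c 2 (by norm_num)
  have hL2 : (0 : ℝ) ≤ Real.log 2 := Real.log_nonneg (by norm_num)
  have h1 := a1f_le ha0
  set R := √T with hR
  have hR0 : 0 < R := Real.sqrt_pos.2 t1
  have hRT : R ^ 2 = T := Real.sq_sqrt t1.le
  have hTU : T * Uf q n y T = (n : ℝ) ^ q * y ^ 2 * R := by
    unfold Uf
    rw [← hR, ← hRT]
    field_simp
  rcases hz with hz | hz
  · -- large share
    have lT := Real.log_le_log (by positivity) hz
    simp (disch := positivity) only [Real.log_div, Real.log_mul, Real.log_rpow,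
      Real.log_pow] at lT
    push_cast at lT
    have h2 : 4 * (A * ((n : ℝ) ^ (-(10 * q)) * y ^ 2)) ≤ T := by
      refine le_of_log (by positivity) t1 ?_
      simp (disch := positivity) only [Real.log_mul, Real.log_rpow, Real.log_pow]
      push_cast
      linarith
    have h3 : T / 2 ≤ T - a1f a := by linarith
    refine ⟨by linarith, by linarith, ?_, ?_⟩
    · have h4 : a4c b c0 * Uf q n y T ^ 2 ≤ T / 4 := by
        refine le_of_log (by positivity) (by positivity) ?_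
        simp (disch := positivity) only [Real.log_mul, Real.log_pow, Real.log_div, h.log_Uf t1]
        push_cast
        linarith
      linarith
    · rw [hTU]
      have h4 : (n : ℝ) ^ q * y ^ 2 * R ≤ (n : ℝ) ^ (-q) * y * T := by
        refine le_of_log (by positivity) (by positivity) ?_
        rw [hR]
        simp (disch := positivity) only [Real.log_mul, Real.log_rpow, Real.log_pow,
          Real.log_sqrt]
        push_cast
        linarith
      have h5 : (n : ℝ) ^ (-q) * y * T ≤ 3 * ((n : ℝ) ^ (-q) * y) * (T - a1f a) := by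
        have h6 : 0 < (n : ℝ) ^ (-q) * y := by positivity
        have h7 : T ≤ 3 * (T - a1f a) := by linarith
        have h8 := mul_le_mul_of_nonneg_left h7 h6.le
        linarith
      linarith
  · -- massive
    set P := (n : ℝ) ^ (4 * q) * y ^ 2 with hP
    have hP0 : 0 < P := by rw [hP]; positivity
    have h2 : T + 2 * P ≤ T - a1f a := by linarith
    refine ⟨by linarith, by linarith, ?_, ?_⟩
    · have h3 : a4c b c0 * Uf q n y T ^ 2 ≤ P := by
        rw [hP]
        refine le_of_log (by positivity) (by positivity) ?_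
        simp (disch := positivity) only [Real.log_mul, Real.log_pow, Real.log_rpow,
          h.log_Uf t1]
        push_cast
        linarith
      linarith
    · rw [hTU]
      have e4 : (n : ℝ) ^ (4 * q) = ((n : ℝ) ^ (2 * q)) ^ 2 := by
        rw [← Real.rpow_natCast, ← Real.rpow_mul hn.le]
        congr 1
        push_cast
        ring
      have h3 : 2 * (R * ((n : ℝ) ^ (2 * q) * y)) ≤ T + P := by
        have := sq_nonneg (R - (n : ℝ) ^ (2 * q) * y)
        rw [hP, e4, ← hRT]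
        nlinarith
      have e5 : (n : ℝ) ^ q * y ^ 2 * R =
          (n : ℝ) ^ (-q) * y * (R * ((n : ℝ) ^ (2 * q) * y)) := by
        have : (n : ℝ) ^ q = (n : ℝ) ^ (-q) * (n : ℝ) ^ (2 * q) := by
          rw [← Real.rpow_add hn]
          congr 1
          ring
        rw [this]
        ring
      rw [e5]
      have h6 : 0 < (n : ℝ) ^ (-q) * y := by positivity
      have h7 : R * ((n : ℝ) ^ (2 * q) * y) ≤ 3 * (T - a1f a) := by linarith
      have h8 := mul_le_mul_of_nonneg_left h7 h6.le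
      linarith

/-- the final size -/
lemma FW.fin (h : FW b c0 A b₁ b₀ q n y V) {vp : ℝ} (hvp : vp ≤ V) :
    2 * (Cf b c0 * (3 * ((n : ℝ) ^ (-q) * y) * (vp / b ^ 2) + (n : ℝ) ^ (-(1 / 20) : ℝ))) ≤
      DL q n y := by
  obtain ⟨f1, f2, f3, f4, f5, f6, f7, f8, f9⟩ := h.facts
  obtain ⟨c1, c2, c3, c4, c5, c6, c7, c8⟩ := h.cst
  have hn := h.env.n0
  have hy := h.env.y0
  have hV := h.env.V0
  have hb := h.hb
  have hC := Cf_pos h.hb h.hc
  have k4 := log_c 4 (by norm_num)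
  have k12 := log_c 12 (by norm_num)
  have h1 : 12 * (Cf b c0 * ((n : ℝ) ^ (-q) * y * (V / b ^ 2))) ≤ DL q n y := by
    unfold DL
    refine le_of_log (by positivity) (by positivity) ?_
    simp (disch := positivity) only [Real.log_mul, Real.log_div, Real.log_rpow, Real.log_pow]
    push_cast
    linarith
  have h2 : 4 * (Cf b c0 * (n : ℝ) ^ (-(1 / 20) : ℝ)) ≤ DL q n y := by
    unfold DL
    refine le_of_log (by positivity) (by positivity) ?_
    simp (disch := positivity) only [Real.log_mul, Real.log_rpow, Real.log_pow]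
    push_cast
    linarith
  have h3 : vp / b ^ 2 ≤ V / b ^ 2 := div_le_div_of_nonneg_right hvp (by positivity)
  have h4 := mul_le_mul_of_nonneg_left h3
    (show 0 ≤ 6 * (Cf b c0 * ((n : ℝ) ^ (-q) * y)) by positivity)
  linarith

end num

end Vale.Agent.P146.H643.LC
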