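import Vale.Agent.P146.H643.LcFarN
import Vale.Agent.P146.H643.LcFarZ
import Vale.Agent.P146.H470.LowA
import Vale.Agent.P146.H516.Ap2
import Vale.Agent.P146.H516.SlopeLow

/-!
# P146: the far zone of LC

`far_zone`: `T rr(T) ≤ n^(-q) y⁴` for `T ≥ n^(6 q) y²`, and for all `T ≥ T1 / 2` if the own tangent
is at most `-n^(4 q) y²`.
-/

open MeasureTheory ProbabilityTheory Filter Topology Set

namespace Vale.Agent.P146.H643.LC

open Vale.Agent.P146.H470 (LcE lcE_ev le_of_log log_c uP uQ TL DL mL uP_mem rz b_rz ev_log)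
open Vale.Agent.P146.H412 (Cp)
open Vale.Agent.P146.H75 (sL lamL etaL sel_typU TypU)
open Vale.Agent.P146.H418 (lawOf)
open Vale.Agent.P146.H529 (SG cc tail_ap)
open Vale.Agent.P146.H178 (AP)
open Vale.Agent.P146.H418 (Sn Law)
open Vale.Agent.P146.H615 (PstL)

/-- the constant `r0` is bounded -/
lemma rz_abs {b y a : ℝ} (hb : 0 < b) (hy : 0 < y) (hy1 : y ≤ 1 / 4) (ha0 : 0 ≤ 1 + a)
    (ha1 : 1 + a ≤ 2) : |rz b y a| + 1 ≤ 3 + 4 / b := by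
  unfold rz
  have h1 : 0 < 1 - y := by linarith
  have h2 : (1 + a) / b ≤ 2 / b := div_le_div_of_nonneg_right ha1 hb.le
  have h3 : 0 ≤ (1 + a) / b := by positivity
  have h4 : 0 < 2 / b := by positivity
  have h5 : |(1 - (1 + a) / b) / (1 - y)| ≤ 2 * (1 + 2 / b) := by
    rw [abs_div, abs_of_pos h1, div_le_iff₀ h1]
    have h6 : |1 - (1 + a) / b| ≤ 1 + 2 / b := by
      rw [abs_le]
      constructor <;> linarith
    nlinarith
  have h7 : 4 / b = 2 * (2 / b) := by ring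
  linarith

lemma xv_le {y b w : ℝ} (hy0 : 0 < y) (hy : y ≤ 1 / 4) (h : 8 * (y ^ 2 * b ^ 2) ≤ 1)
    (hw0 : 0 ≤ w) (hw : w ≤ 1) : y ^ 2 * (b ^ 2 + w) ≤ 1 / 4 := by
  have h1 : y ^ 2 ≤ 1 / 16 := by nlinarith
  have h2 : y ^ 2 * w ≤ 1 / 16 * 1 := mul_le_mul h1 hw hw0 (by norm_num)
  linarith

/-- **The far zone at one typical point.** -/
theorem far_pt {b c0 A b₁ b₀ q : ℝ} {n : ℕ} {y V a s lam η : ℝ} (h : FW b c0 A b₁ b₀ q n y V)
    (hs0 : 0 < s) (hsV : s ^ 2 ≤ V / 2) (hη0 : 0 < η) (hη : η ≤ (n : ℝ) ^ (-(1 / 20) : ℝ))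
    (hlam : 0 < lam) (ha : a ≤ A * ((n : ℝ) ^ (-(10 * q)) * y ^ 2)) (hc : c0 ≤ 1 + a)
    {T u : ℝ} {m M1 M2 : ℕ} (hT : TL q n y / 4 ≤ T) (hT1 : T ≤ 1) (hu0 : 0 < u) (hu1 : u ≤ 1)
    {u0 u1 : ℝ} (hdu : (n : ℝ) ^ (-q) / 2 ≤ u1 - u0) (hm1 : 1 ≤ m) (hmn : 2 * m ≤ n)
    (hM12 : M1 ≤ M2) (hM : (n : ℝ) ^ (1 - q - 40 * q) * y ^ 2 ≤ (M2 : ℝ) - M1 + 1)
    (hty : TypU (lawOf n b y V a s lam η) 1 u0 u1 M1 M2 T u m) {i0 : Fin n}
    (hi : i0.1 + m = n)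
    (hmom : ∀ (S : Finset (Fin n)) (p : ℕ), (lawOf n b y V a s lam η).ex' (1 - T) u
        (fun z => H412.CC (lawOf n b y V a s lam η) S (1 - T) u z ^ p) ≤
      Cp p * (4 * ((n : ℝ) ^ (3 / 2 * q) * y ^ 4) / (b ^ 2 * T)) ^ p)
    (hpq : (lawOf n b y V a s lam η).ex' (1 - T) u (H317.ind (Uf q n y T)
      ((lawOf n b y V a s lam η).Q (Sn n m) (1 - T) u)) ≤ (n : ℝ) ^ (-1 : ℝ))
    (hpc : (lawOf n b y V a s lam η).ex' (1 - T) u (H317.ind (Uf q n y T ^ 2)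
      (H412.CC (lawOf n b y V a s lam η) (Sn n (m - 1)) (1 - T) u)) ≤ (n : ℝ) ^ (-1 : ℝ))
    (hth : 5 / √m + 2 * |lam / ((1 - y) * (s ^ 2 * n))| + 3 * ((|rz b y a| + 1) *
      √(PstL (lawOf n b y V a s lam η) (1 - T) u)) / √(Uf q n y T) ≤
        (n : ℝ) ^ (-(1 / 20) : ℝ))
    (hz : (n : ℝ) ^ (6 * q) * y ^ 2 / 2 ≤ T ∨ a ≤ -((n : ℝ) ^ (4 * q) * y ^ 2)) :
    T * (lawOf n b y V a s lam η).rr (Sn n m) (1 - T) u ≤
      Cf b c0 * (3 * ((n : ℝ) ^ (-q) * y) * ((V - s ^ 2) / b ^ 2) +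
        (n : ℝ) ^ (-(1 / 20) : ℝ)) := by
  have hn := h.env.n0
  have hy := h.env.y0
  have hV := h.env.V0
  have hb := h.hb
  obtain ⟨y1, y2, y3, y4⟩ := h.y_le
  have hvp : V / 2 ≤ V - s ^ 2 := by linarith only [hsV]
  have hvp0 : 0 < V - s ^ 2 := by linarith only [hsV, hV]
  have hvpV : V - s ^ 2 ≤ V := by linarith only [sq_nonneg s]
  have ha1 := h.a_le ha
  have ha0 : 0 < 1 + a := h.hc.trans_le hc
  obtain ⟨t1, t2, t3⟩ := h.tf hT hT1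
  obtain ⟨g1, g2, g3, g4⟩ := h.mass hT hT1 ha ha0 hz
  have hy11 : y < 1 := by linarith only [y1]
  have hrz : b * (1 - (1 - y) * rz b y a) = 1 + a := b_rz hb hy11
  have hnq : 0 < (n : ℝ) ^ (-q) := by positivity
  have hdu' : u0 < u1 := by linarith only [hdu, hnq]
  have hnn : 0 < n := by exact_mod_cast hn
  have hAd : H320.Adm (lawOf n b y V a s lam η) :=
    ⟨hnn, hb, hvp0, hlam, hη0.le, hy.le, hy11.le⟩
  have mm1 : ∀ S : Finset (Fin n), (lawOf n b y V a s lam η).ex' (1 - T) u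
      (H412.CC (lawOf n b y V a s lam η) S (1 - T) u) ≤ Uf q n y T ^ 2 := by
    intro S
    have h2 := (hmom S 1).trans (h.mom1 t1)
    simpa only [pow_one] using h2
  have mm2 := (hmom (Sn n m) 2).trans (h.mom2 t1)
  have hcc : cc n b s a = s ^ 2 * n * (1 - (1 - y) * rz b y a) := by
    rw [H470.rz_eq hy11]
    unfold cc
    ring
  have hxv : y ^ 2 * (b ^ 2 + (V - s ^ 2)) ≤ 1 / 4 :=
    xv_le hy y1 y2 hvp0.le (hvpV.trans y3)
  have hx2 : y ≤ 1 / 2 := by linarith only [y1]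
  have hca : 1 - 1 / (b * (1 - (1 - y) * rz b y a)) ^ 2 ≤ a1f a := by
    rw [hrz]
    rfl
  have hcA : c0 ≤ b * (1 - (1 - y) * rz b y a) := by rw [hrz]; exact hc
  have hcB : b * (1 - (1 - y) * rz b y a) ≤ 2 := by rw [hrz]; exact ha1
  exact far_n (L := lawOf n b y V a s lam η) hAd hs0.ne' hy hx2 hcc h.hc hcA hcB hm1 hmn hM12 t1
    hT1 hu0 hu1 hdu' one_pos hty hi (h.Uf_pos t1) (h.Uf_le hT hT1)
    (Real.rpow_pos_of_pos hn _) h.E_le (h.vU hT hT1 hvpV) hη y2 hxv (mm1 Finset.univ)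
    (mm1 (Sn n m)) mm2 hth le_rfl (h.rkn hvp hdu) (h.k4n hT hT1) (h.incn hM)
    (Real.rpow_nonneg hn.le _) (h.tln hT hT1) hpq hpc hca g1 g2 g3 g4

/-- **The far zone at one `n`.** -/
theorem far_at {b c0 A b₁ b₀ q : ℝ} {n : ℕ} {y V a s lam η : ℝ} (h : FW b c0 A b₁ b₀ q n y V)
    (hs0 : 0 < s) (hsV : s ^ 2 ≤ V / 2) (hη0 : 0 < η) (hη : η ≤ (n : ℝ) ^ (-(1 / 20) : ℝ))
    (hlam : 0 < lam) (ha : a ≤ A * ((n : ℝ) ^ (-(10 * q)) * y ^ 2)) (hc : c0 ≤ 1 + a)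
    (hmom : ∀ t : ℝ, 0 ≤ t → t < 1 → ∀ u ∈ Icc (0 : ℝ) 1, ∀ (S : Finset (Fin n)) (p : ℕ),
      (lawOf n b y V a s lam η).ex' t u
        (fun z => H412.CC (lawOf n b y V a s lam η) S t u z ^ p) ≤
      Cp p * (4 * ((n : ℝ) ^ (3 / 2 * q) * y ^ 4) / (b ^ 2 * (1 - t))) ^ p)
    (htl : ∀ t : ℝ, 0 ≤ t → t < 1 → ∀ u ∈ Icc (0 : ℝ) 1,
      ∀ (S : Finset (Fin n)) (U : ℝ), 0 ≤ U → ((n : ℝ) ^ q * y ^ 2) ^ 2 ≤ U ^ 2 * (1 - t) →
      (lawOf n b y V a s lam η).ex' t u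
        (H317.ind (U ^ 2) (H412.CC (lawOf n b y V a s lam η) S t u)) ≤ (n : ℝ) ^ (-1 : ℝ) ∧
      (lawOf n b y V a s lam η).ex' t u
        (H317.ind U ((lawOf n b y V a s lam η).Q S t u)) ≤ (n : ℝ) ^ (-1 : ℝ))
    (hth : ∀ T : ℝ, TL q n y / 4 ≤ T → T ≤ 1 → ∀ u ∈ Icc (0 : ℝ) 1, ∀ m : ℕ,
      (n : ℝ) ^ (1 - q - 40 * q) * y ^ 2 ≤ m →
      5 / √m + 2 * |lam / ((1 - y) * (s ^ 2 * n))| + 3 * ((|rz b y a| + 1) *
      √(PstL (lawOf n b y V a s lam η) (1 - T) u)) / √(Uf q n y T) ≤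
        (n : ℝ) ^ (-(1 / 20) : ℝ)) {T : ℝ} (hT : TL q n y / 2 ≤ T) (hT1 : T ≤ 1)
    (hz : (n : ℝ) ^ (6 * q) * y ^ 2 ≤ T ∨ a ≤ -((n : ℝ) ^ (4 * q) * y ^ 2)) :
    T * (lawOf n b y V a s lam η).rr
      (Sn n (mL q (40 * q) n y)) (1 - T) (uQ q q n y V) ≤ DL q n y := by
  have hn := h.env.n0
  have hy := h.env.y0
  have hV := h.env.V0
  have hb := h.hb
  have hq := h.hq
  obtain ⟨f1, f2, f3, f4, f5, f6, f7, f8, f9⟩ := h.facts
  obtain ⟨y1, y2, y3, y4⟩ := h.y_le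
  have hnn : 0 < n := by exact_mod_cast hn
  have hnq : 0 < (n : ℝ) ^ (-q) := by positivity
  have hTL : 0 < TL q n y := by
    unfold TL
    positivity
  have hT0 : 0 < T := by linarith
  have hvp0 : 0 < V - s ^ 2 := by linarith
  have hvpV : V - s ^ 2 ≤ V := by linarith [sq_nonneg s]
  have hAd : H320.Adm (lawOf n b y V a s lam η) :=
    ⟨hnn, hb, hvp0, hlam, hη0.le, hy.le, by show y ≤ 1; linarith⟩
  -- the windows
  obtain ⟨p1, p2⟩ := uP_mem q n hV hy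
  have hdu : (n : ℝ) ^ (-q) / 2 ≤ uP q n y V - uQ q q n y V := by
    have e : uP q n y V - uQ q q n y V = (n : ℝ) ^ (-q) * uP q n y V := by
      unfold uQ
      ring
    rw [e]
    have := mul_le_mul_of_nonneg_left p1 hnq.le
    linarith
  have hm12' : 2 * ⌈(n : ℝ) ^ (1 - q - 40 * q) * y ^ 2⌉₊ = mL q (40 * q) n y := rfl
  obtain ⟨hmLn, hm1⟩ := h.mLn
  have hM1r : (n : ℝ) ^ (1 - q - 40 * q) * y ^ 2 ≤
      (⌈(n : ℝ) ^ (1 - q - 40 * q) * y ^ 2⌉₊ : ℕ) := Nat.le_ceil _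
  obtain ⟨M1, hM1⟩ : ∃ M1, M1 = ⌈(n : ℝ) ^ (1 - q - 40 * q) * y ^ 2⌉₊ := ⟨_, rfl⟩
  rw [← hM1] at hm12' hm1 hM1r
  have hM12 : M1 ≤ mL q (40 * q) n y := by omega
  have hM2 : ((mL q (40 * q) n y : ℕ) : ℝ) = 2 * M1 := by
    rw [← hm12']
    push_cast
    ring
  -- `uQ > 0`
  have hq1 : (n : ℝ) ^ (-q) < 1 := by
    refine H470.lt_of_log (by positivity) one_pos ?_
    rw [Real.log_rpow hn, Real.log_one]
    linarith
  have huQ : 0 < uQ q q n y V := by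
    unfold uQ
    exact mul_pos (by linarith) (by linarith)
  obtain ⟨T', hT', u, hu, m, hm, hty⟩ := sel_typU hAd (h := 1) (Ta := TL q n y / 2) (Tb := 1)
    (u0 := uQ q q n y V) (u1 := uP q n y V) (m1 := M1) (m2 := mL q (40 * q) n y) zero_le_one
    (by positivity) le_rfl hm1 hM12 huQ.le (by linarith) p2 T ⟨hT, hT1⟩
  have hmI := Finset.mem_Icc.1 hm
  have hT'1 : T / 2 ≤ T' := by
    have := hT'.1
    norm_num at this
    linarith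
  have hT'T : T' ≤ T := hT'.2
  have hT'4 : TL q n y / 4 ≤ T' := by linarith
  have hT'11 : T' ≤ 1 := hT'T.trans hT1
  have hT'0 : 0 < T' := by linarith
  have hu0 : 0 < u := huQ.trans_le hu.1
  have hu1 : u ≤ 1 := hu.2.trans p2
  have hum : u ∈ Icc (0 : ℝ) 1 := ⟨hu0.le, hu1⟩
  have hmn : 2 * m ≤ n := by omega
  have hm1' : 1 ≤ m := hm1.trans hmI.1
  have hmR : (n : ℝ) ^ (1 - q - 40 * q) * y ^ 2 ≤ m := hM1r.trans (by exact_mod_cast hmI.1)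
  have hz' : (n : ℝ) ^ (6 * q) * y ^ 2 / 2 ≤ T' ∨ a ≤ -((n : ℝ) ^ (4 * q) * y ^ 2) := by
    rcases hz with hz | hz
    · left
      linarith
    · right
      exact hz
  have hU0 := h.Uf_pos (T := T') hT'0
  have ht0 : 0 ≤ 1 - T' := by linarith
  have ht1 : 1 - T' < 1 := by linarith
  have hTT : 1 - (1 - T') = T' := by ring
  have hi0 : n - m < n := by omega
  have hUT : ((n : ℝ) ^ q * y ^ 2) ^ 2 ≤ Uf q n y T' ^ 2 * (1 - (1 - T')) := by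
    rw [hTT]
    unfold Uf
    rw [div_pow, Real.sq_sqrt hT'0.le, div_mul_cancel₀ _ hT'0.ne']
  have t1 := (htl (1 - T') ht0 ht1 u hum (Sn n m) (Uf q n y T') hU0.le hUT).2
  have t2 := (htl (1 - T') ht0 ht1 u hum (Sn n (m - 1)) (Uf q n y T') hU0.le hUT).1
  have hmm := hmom (1 - T') ht0 ht1 u hum
  rw [hTT] at hmm
  have key := far_pt h hs0 hsV hη0 hη hlam ha hc hT'4 hT'11 hu0 hu1 hdu hm1' hmn hM12
    (by rw [hM2]; linarith) hty (i0 := ⟨n - m, hi0⟩) (by show n - m + m = n; omega) hmm t1 t2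
    (hth T' hT'4 hT'11 u hum m hmR) hz'
  have hmo : (lawOf n b y V a s lam η).rr (Sn n (mL q (40 * q) n y)) (1 - T) (uQ q q n y V) ≤
      (lawOf n b y V a s lam η).rr (Sn n m) (1 - T') u :=
    H643.rr_mono hAd.lam0 hAd.η0 hAd.vp0 (Sn_anti hmI.2) (by linarith) (by linarith)
      (by linarith) huQ.le hu.1 hu1
  have hrr0 : 0 ≤ (lawOf n b y V a s lam η).rr (Sn n m) (1 - T') u :=
    H643.rr_nonneg hAd.lam0 hAd.η0
  have hfin := h.fin hvpV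
  calc T * (lawOf n b y V a s lam η).rr (Sn n (mL q (40 * q) n y)) (1 - T) (uQ q q n y V) ≤
        T * (lawOf n b y V a s lam η).rr (Sn n m) (1 - T') u :=
        mul_le_mul_of_nonneg_left hmo hT0.le
    _ ≤ 2 * T' * (lawOf n b y V a s lam η).rr (Sn n m) (1 - T') u :=
        mul_le_mul_of_nonneg_right (by linarith) hrr0
    _ = 2 * (T' * (lawOf n b y V a s lam η).rr (Sn n m) (1 - T') u) := by ring
    _ ≤ 2 * (Cf b c0 * (3 * ((n : ℝ) ^ (-q) * y) * ((V - s ^ 2) / b ^ 2) +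
          (n : ℝ) ^ (-(1 / 20) : ℝ))) := mul_le_mul_of_nonneg_left key (by norm_num)
    _ ≤ DL q n y := hfin

/-- **The far zone of LC**: the sizes for `T ≥ n^(6 q) y²`, and for all `T` if the own tangent is
very negative. -/
theorem far_zone {b q b₀ b₁ : ℝ} (hb : 0 < b) (hq : 0 < q) (hqb : 100 * q ≤ b₀)
    (hbb : b₀ ≤ b₁) (hb₁ : b₁ ≤ 1 / 100) :
    ∀ A : ℝ, 1 ≤ A → ∀ᶠ n : ℕ in atTop, ∀ y : ℝ, (n : ℝ) ^ (-b₁) ≤ y →
      y ≤ 2 * (n : ℝ) ^ (-b₀) → ∀ V : ℝ, y ^ 5 ≤ A * V →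
      V ≤ A * ((n : ℝ) ^ (-(23 * q)) * y ^ 3) → AP b q n y (2 * V) →
      ∀ a : ℝ, SG n b y V a → a ≤ A * ((n : ℝ) ^ (-(10 * q)) * y ^ 2) →
      ∀ T : ℝ, TL q n y / 2 ≤ T → T ≤ 1 →
        ((n : ℝ) ^ (6 * q) * y ^ 2 ≤ T ∨ a ≤ -((n : ℝ) ^ (4 * q) * y ^ 2)) →
        T * (lawOf n b y V a (sL (1 / 10) n y) (lamL q (1 / 4) n y) (etaL (1 / 4) n)).rr
          (Sn n (mL q (40 * q) n y)) (1 - T) (uQ q q n y V) ≤ DL q n y := by
  intro A hA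
  obtain ⟨c0, hc0, hsg⟩ := H516.sg_low hb
  filter_upwards [lcE_ev (b₁ := b₁) (b₀ := b₀) (d0 := 23 * q) (A := 2 * A) (Kfar b c0 A) hq
      (by linarith),
    H516.mom_ev1 (b := b) (e := 1 / 20) (s0 := q) (s1 := 3 / 2 * q) hb (by norm_num) hq.le
      (by linarith),
    H516.tail_ev1 (b := b) (e := 1 / 20) (s0 := q) (s1 := 3 / 2 * q) (s2 := q) 1 hb
      (by norm_num) hq.le (by linarith) (by linarith),
    tail_ap (D := 2) (cl := q) hq hb, ev_log (show (0 : ℝ) < 1 / 10 by norm_num)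
      (Real.log (2 * A)), eventually_ge_atTop 1] with n g1 g2 g3 g4 g5 g6
  intro y hy1 hy2 V hV1 hV2 hap a hsg' ha T hT1 hT2 hz
  have hn1 : (1 : ℝ) ≤ n := by exact_mod_cast g6
  have hn0 : (0 : ℝ) < n := by linarith
  have hA0 : 0 < A := by linarith
  have hy0 : 0 < y := lt_of_lt_of_le (Real.rpow_pos_of_pos hn0 _) hy1
  have hV0 : 0 < V := by
    have : 0 < A * V := lt_of_lt_of_le (by positivity) hV1
    exact (mul_pos_iff_of_pos_left hA0).1 this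
  have e : LcE b₁ b₀ (23 * q) q (Kfar b c0 A) n y V := by
    refine g1 y V ?_ ?_ ?_ ?_
    · have : y ≤ 2 * A * y := le_mul_of_one_le_left hy0.le (by linarith)
      linarith
    · have : 0 < (n : ℝ) ^ (-b₀) := by positivity
      nlinarith
    · have : 0 ≤ A * V := by positivity
      linarith
    · have : 0 ≤ A * ((n : ℝ) ^ (-(23 * q)) * y ^ 3) := by positivity
      linarith
  have h : FW b c0 A b₁ b₀ q n y V := ⟨e, hb, hc0, hA, hq, hqb, hbb, hb₁⟩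
  obtain ⟨y1, y2, y3, y4⟩ := h.y_le
  have hA2 : A * (n : ℝ) ^ (-(1 / 10) : ℝ) ≤ 1 / 2 := by
    refine le_of_log (by positivity) (by norm_num) ?_
    rw [Real.log_mul (by norm_num) (by positivity)] at g5
    simp (disch := positivity) only [Real.log_mul, Real.log_rpow, Real.log_div, Real.log_one]
    linarith
  have hs2 : sL (1 / 10) n y ^ 2 = (n : ℝ) ^ (-(1 / 10) : ℝ) * y ^ 5 := by
    unfold sL
    rw [Real.sq_sqrt (by positivity)]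
  have hs0 : 0 < sL (1 / 10) n y := Real.sqrt_pos.2 (by positivity)
  have hsV : sL (1 / 10) n y ^ 2 ≤ V / 2 := by
    rw [hs2]
    calc (n : ℝ) ^ (-(1 / 10) : ℝ) * y ^ 5 ≤ (n : ℝ) ^ (-(1 / 10) : ℝ) * (A * V) :=
          mul_le_mul_of_nonneg_left hV1 (by positivity)
      _ = A * (n : ℝ) ^ (-(1 / 10) : ℝ) * V := by ring
      _ ≤ 1 / 2 * V := mul_le_mul_of_nonneg_right hA2 hV0.le
      _ = V / 2 := by ring
  have hη0 : 0 < etaL (1 / 4) n := Real.rpow_pos_of_pos hn0 _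
  have hη3 : etaL (1 / 4) n ≤ 1 / 3 := by
    obtain ⟨f1, f2, f3, f4, f5, f6, f7, f8, f9⟩ := h.facts
    have k3 := log_c 3 (by norm_num)
    unfold etaL
    refine le_of_log (by positivity) (by norm_num) ?_
    simp (disch := positivity) only [Real.log_rpow, Real.log_div, Real.log_one]
    linarith
  have heq : y * (lamL q (1 / 4) n y * etaL (1 / 4) n) = (n : ℝ) ^ q := by
    unfold lamL etaL
    rw [div_mul_eq_mul_div, ← Real.rpow_add hn0, mul_div_cancel₀ _ hy0.ne']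
    congr 1
    ring
  have hnq : 1 ≤ (n : ℝ) ^ q := Real.one_le_rpow hn1 hq.le
  have hlam : 0 < lamL q (1 / 4) n y := by
    unfold lamL
    positivity
  have hlη : 1 ≤ lamL q (1 / 4) n y * etaL (1 / 4) n := by
    have h2 : y * (lamL q (1 / 4) n y * etaL (1 / 4) n) ≤
        1 * (lamL q (1 / 4) n y * etaL (1 / 4) n) :=
      mul_le_mul_of_nonneg_right (by linarith) (by positivity)
    linarith
  have hl1 : 1 ≤ lamL q (1 / 4) n y := by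
    have : lamL q (1 / 4) n y * etaL (1 / 4) n ≤ lamL q (1 / 4) n y * 1 :=
      mul_le_mul_of_nonneg_left (by linarith) hlam.le
    linarith
  have hpar : H516.Par1 b q (1 / 20) n (V - sL (1 / 10) n y ^ 2) (sL (1 / 10) n y)
      (lamL q (1 / 4) n y) (etaL (1 / 4) n) y V a :=
    ⟨by linarith, by ring, y3, hs0, hl1, hη0, hη3, hlη, y4, by linarith, hap, hsg'⟩
  have hyb : y ^ 2 * b ^ 2 ≤ 4 := by linarith
  have hmom := g2 _ _ _ _ _ _ _ hpar hyb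
  have htl := g3 _ _ _ _ _ _ _ hpar hyb
  have hst : ∀ t ∈ Icc (0 : ℝ) 1, ∀ u ∈ Icc (0 : ℝ) 1,
      PstL (lawOf n b y V a (sL (1 / 10) n y) (lamL q (1 / 4) n y) (etaL (1 / 4) n)) t u ≤
        (n : ℝ) ^ (-2 : ℝ) := by
    intro t ht u hu
    exact g4 Bool Bool (H418.cb t) (H418.cf (V - sL (1 / 10) n y ^ 2) u) (lamL q (1 / 4) n y)
      (sL (1 / 10) n y) (etaL (1 / 4) n) y V a (H418.sum_cb ht.1 ht.2)
      (by rw [H418.sum_cf (by linarith) hu.1 hu.2]; ring) y3 hs0 hl1 hη0 (by linarith)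
      (by rw [heq]) hy0 (by linarith) hsg'
  have hc := hsg n g6 y hy0 (by linarith) V hV0 y3 a hsg'
  refine far_at h hs0 hsV hη0 h.eta_le hlam ha hc hmom
    (fun t ht0 ht1 u hu S U hU hUT => ⟨(htl t ht0 ht1 u hu S U hU hUT).1,
      (htl t ht0 ht1 u hu S U hU hUT).2.1⟩) ?_ hT1 hT2 hz
  intro T' hT1' hT2' u hu m hm
  have hT0' : 0 < T' := (h.tf hT1' hT2').1
  exact h.th hT1' hT2' hm (rz_abs hb hy0 y1 (hc0.le.trans hc) (h.a_le ha))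
    (hst (1 - T') ⟨by linarith, by linarith⟩ u hu)

end Vale.Agent.P146.H643.LC
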