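import Vale.Agent.P146.H643.LcPure
import Vale.Agent.P146.H620.RowLow

/-!
# P146: the far zone of LC at one typical point

* `typ_rk`, `typ_inc`, `typ_k4`: the numbers of a point `TypU`, crude;
* `far_n`: `T rr ≤ Cf (G wf + E)`, all small numbers bounded by `E`.
-/

open MeasureTheory ProbabilityTheory Set

namespace Vale.Agent.P146.H643.LC

open Vale.Agent.P157.Lv hiding Dep
open Vale.Agent.P146.H425 Vale.Agent.P146.H646
open Vale.Agent.P146.H325 hiding cb cf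
open Vale.Agent.P146.H196 Vale.Agent.P146.H246 Vale.Agent.P146.H347
  Vale.Agent.P146.H816 Vale.Agent.P146.H119 Vale.Agent.P146.H475 Vale.Agent.P146.H418
  Vale.Agent.P146.H317 Vale.Agent.P146.H75 Vale.Agent.P146.H320 Vale.Agent.P146.H615

set_option linter.unusedSectionVars false

section

variable {L : Law} {t u : ℝ}

lemma abs_cx_one (hA : Adm L) (S : Finset (Fin L.n)) {f : ℝ × Xs L.n → ℝ} (hf : Bm f)
    (hf1 : ∀ w, |f w| ≤ 1) (z : Co L.n Bool Bool → ℝ) : |L.cx' S t u f z| ≤ 1 := by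
  have hG := gmA (n := L.n) L.b (H418.cb t) (H418.cf L.vp u) L.s hA.lam0 hA.η0 L.c
  refine (H347.wt hG 1 L.x).abs_cx_le _ (H347.bm hG 1 hf) (fun y => ?_) z
  exact hG.abs_av_le 1 hf.1 hf1 y

lemma ff_le_n (hA : Adm L) (S : Finset (Fin L.n)) : L.ff S t u ≤ L.n := by
  have hw : Wt (g1 (Co L.n Bool Bool)) (L.wt t u) := wt_L hA t u
  have hG := gmA (n := L.n) L.b (H418.cb t) (H418.cf L.vp u) L.s hA.lam0 hA.η0 L.c
  have hb : BM fun z => ∑ i ∈ S, L.cx' S t u (fun w => H325.sp w.2 i) z ^ 2 :=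
    BM.sum S fun i _ => bsq ((H347.wt hG 1 L.x).bm_cx _ (H347.bm hG 1 (bm_sp i)))
  have h1 : L.ff S t u ≤ ex (g1 (Co L.n Bool Bool)) (L.wt t u) (fun _ => (L.n : ℝ)) := by
    refine H615.ex_mono hw hb (BM.const _) fun z => ?_
    calc ∑ i ∈ S, L.cx' S t u (fun w => H325.sp w.2 i) z ^ 2 ≤ ∑ _i ∈ S, (1 : ℝ) := by
          refine Finset.sum_le_sum fun i _ => ?_
          rw [← sq_abs]
          exact pow_le_one₀ (abs_nonneg _)
            (abs_cx_one hA S (bm_sp i) (fun w => H646.abs_sp_le w.2 i) z)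
      _ = S.card := by simp
      _ ≤ L.n := card_le_real hA.lam0 hA.η0 S
  rwa [H615.ex_const hw] at h1

lemma CC_le_one (hA : Adm L) (S : Finset (Fin L.n)) : H643.CC L S t u ≤ 1 := by
  have hw : Wt (g1 (Co L.n Bool Bool)) (L.wt t u) := wt_L hA t u
  have h1 : H643.CC L S t u ≤ ex (g1 (Co L.n Bool Bool)) (L.wt t u) (fun _ => (1 : ℝ)) := by
    refine H615.ex_mono hw (H412.bm_CC hA.lam0 hA.η0 S t u) (BM.const _) fun z => ?_
    exact CCv_le_one hA.lam0 hA.η0 hA.n0 S (Kset S {true} {true}) z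
  rwa [H615.ex_const hw] at h1

lemma rr_le_CC (hA : Adm L) (S : Finset (Fin L.n)) : L.rr S t u ≤ H643.CC L S t u := by
  rw [CC_eq_rr hA.lam0 hA.η0 hA.n0]
  have : (0 : ℝ) ≤ (S.card : ℝ) / (L.n : ℝ) ^ 2 := by positivity
  linarith

lemma pp_le_n (hA : Adm L) (S : Finset (Fin L.n)) : L.pp S t u ≤ (L.n : ℝ) ^ 2 := by
  have hn : (0 : ℝ) < L.n := by exact_mod_cast hA.n0
  have h1 : L.rr S t u ≤ 1 := (rr_le_CC hA S).trans (CC_le_one hA S)
  unfold Law.rr at h1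
  rw [div_le_one (by positivity)] at h1
  nlinarith [sq_nonneg (L.n : ℝ)]

variable {h u0 u1 T : ℝ} {m1 m2 m : ℕ}

/-- the rank number at a typical point -/
lemma typ_rk (hA : Adm L) (hx : 0 < L.x) (hdu : u0 < u1)
    (hty : TypU L h u0 u1 m1 m2 T u m) {S : Finset (Fin L.n)}
    (hS : S = Sn L.n m ∨ S = Sn L.n (m - 1)) {R : ℝ}
    (hR : 6 / (L.n * (L.x ^ 2 * L.vp * (u1 - u0))) ≤ R) :
    rkL L (H418.cb (1 - T)) (H418.cf L.vp u) S (Kset S {true} {true}) / (L.n : ℝ) ^ 2 ≤ R := by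
  have hn : (0 : ℝ) < L.n := by exact_mod_cast hA.n0
  have hv := hA.vp0
  obtain ⟨T'', _, hT⟩ := hty
  have h1 := hT.rk S hS
  have h2 := ff_le_n (t := 1 - T'') (u := u1) hA Finset.univ
  have hd : 0 < L.x ^ 2 * L.vp * (u1 - u0) := by
    have : 0 < u1 - u0 := by linarith
    positivity
  refine le_trans ?_ hR
  rw [div_le_div_iff₀ (by positivity) (by positivity)]
  have h3 : L.x ^ 2 * L.vp * (u1 - u0) *
      rkL L (H418.cb (1 - T)) (H418.cf L.vp u) S (Kset S {true} {true}) ≤ 6 * L.n := by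
    linarith
  calc rkL L (H418.cb (1 - T)) (H418.cf L.vp u) S (Kset S {true} {true}) *
        (L.n * (L.x ^ 2 * L.vp * (u1 - u0))) = (L.n : ℝ) * (L.x ^ 2 * L.vp * (u1 - u0) *
        rkL L (H418.cb (1 - T)) (H418.cf L.vp u) S (Kset S {true} {true})) := by ring
    _ ≤ (L.n : ℝ) * (6 * L.n) := mul_le_mul_of_nonneg_left h3 hn.le
    _ = 6 * (L.n : ℝ) ^ 2 := by ring

/-- the covariances of the pairs at a typical point -/
lemma typ_k4 (hA : Adm L) (hx : 0 < L.x) (hh : 0 < h) (hT0 : 0 < T)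
    (hty : TypU L h u0 u1 m1 m2 T u m) {S : Finset (Fin L.n)}
    (hS : S = Sn L.n m ∨ S = Sn L.n (m - 1)) {R : ℝ}
    (hR : 6 / (L.n * (L.x ^ 2 * L.b ^ 2 * (h * (T / (1 + h))))) ≤ R) :
    rbL L (H418.cb (1 - T)) (H418.cf L.vp u) S (Kset S {true} {true}) / (L.n : ℝ) ^ 4 ≤ R := by
  have hn : (0 : ℝ) < L.n := by exact_mod_cast hA.n0
  have hb := hA.b0
  obtain ⟨T'', hT'', hT⟩ := hty
  have h1 := hT.rb S hS
  have h2 := pp_le_n (t := 1 - T'') (u := u1) hA Finset.univ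
  have hq : 0 < T / (1 + h) := by positivity
  have hT1 : 0 < T'' := hq.trans_le hT''.1
  have hrb : 0 ≤ rbL L (H418.cb (1 - T)) (H418.cf L.vp u) S (Kset S {true} {true}) :=
    H615.ex_nonneg (wt_L hA (1 - T) u) fun z =>
      Finset.sum_nonneg fun _ _ => Finset.sum_nonneg fun _ _ => sq_nonneg _
  refine le_trans ?_ hR
  rw [div_le_div_iff₀ (by positivity) (by positivity)]
  have h3 : L.x ^ 2 * (L.b ^ 2 / L.n) * (h * (T / (1 + h))) *
      rbL L (H418.cb (1 - T)) (H418.cf L.vp u) S (Kset S {true} {true}) ≤ 6 * (L.n : ℝ) ^ 2 := by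
    have h4 : L.x ^ 2 * (L.b ^ 2 / L.n) * (h * (T / (1 + h))) ≤
        L.x ^ 2 * (L.b ^ 2 / L.n) * (h * T'') := by
      have := hT''.1
      gcongr
    exact (mul_le_mul_of_nonneg_right h4 hrb).trans (h1.trans (by linarith))
  have h5 : rbL L (H418.cb (1 - T)) (H418.cf L.vp u) S (Kset S {true} {true}) *
        (L.n * (L.x ^ 2 * L.b ^ 2 * (h * (T / (1 + h))))) = (L.n : ℝ) ^ 2 *
        (L.x ^ 2 * (L.b ^ 2 / L.n) * (h * (T / (1 + h))) *
        rbL L (H418.cb (1 - T)) (H418.cf L.vp u) S (Kset S {true} {true})) := by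
    field_simp
  rw [h5]
  calc _ ≤ (L.n : ℝ) ^ 2 * (6 * (L.n : ℝ) ^ 2) := mul_le_mul_of_nonneg_left h3 (by positivity)
    _ = 6 * (L.n : ℝ) ^ 4 := by ring

/-- the increment at a typical point -/
lemma typ_inc (hA : Adm L) (hη1 : L.η ≤ 1 / 2) (hm12 : m1 ≤ m2)
    (hty : TypU L h u0 u1 m1 m2 T u m) {i0 : Fin L.n} (hi : i0.1 + m = L.n) {I : ℝ}
    (hI : 14 * L.n / ((m2 : ℝ) - m1 + 1) ≤ I) :
    incL L (H418.cb (1 - T)) (H418.cf L.vp u) (Sn L.n m) (Kset (Sn L.n m) {true} {true})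
      (Kset (insert i0 (Sn L.n m)) {true} {true}) ≤ I := by
  have hn : (0 : ℝ) < L.n := by exact_mod_cast hA.n0
  obtain ⟨T'', hT'', hT⟩ := hty
  have h1 := hT.inc i0 hi
  have hm : (0 : ℝ) < (m2 : ℝ) - m1 + 1 := by
    have : (m1 : ℝ) ≤ m2 := by exact_mod_cast hm12
    linarith
  have hw := wt_L hA (1 - T'') u1
  have h2 : L.ex' (1 - T'') u1 (L.Q Finset.univ (1 - T'') u1) ≤ 9 / 4 := by
    have h3 : L.ex' (1 - T'') u1 (L.Q Finset.univ (1 - T'') u1) ≤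
        ex (g1 (Co L.n Bool Bool)) (L.wt (1 - T'') u1) (fun _ => (9 / 4 : ℝ)) := by
      refine H615.ex_mono hw (H75.bm_Q hA _ _ _) (BM.const _) fun z => ?_
      refine (H75.Q_le hA Finset.univ (1 - T'') u1 z).trans ?_
      have := hA.η0
      nlinarith
    rwa [H615.ex_const hw] at h3
  refine h1.trans (le_trans ?_ hI)
  refine div_le_div_of_nonneg_right ?_ hm.le
  nlinarith

/-- **The far zone at one typical point.** -/
theorem far_n (hA : Adm L) (hs : L.s ≠ 0) (hx0 : 0 < L.x) (hx1 : L.x ≤ 1 / 2) {r0 : ℝ}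
    (hc : L.c = L.s ^ 2 * L.n * (1 - (1 - L.x) * r0)) {c0 : ℝ} (hc0 : 0 < c0)
    (hA1 : c0 ≤ L.b * (1 - (1 - L.x) * r0)) (hA2 : L.b * (1 - (1 - L.x) * r0) ≤ 2)
    (hm1 : 1 ≤ m) (hmn : 2 * m ≤ L.n) (hm12 : m1 ≤ m2) (hT0 : 0 < T) (hT1 : T ≤ 1)
    (hu0 : 0 < u) (hu1 : u ≤ 1) (hdu : u0 < u1) (hh : 0 < h)
    (hty : TypU L h u0 u1 m1 m2 T u m) {i0 : Fin L.n} (hi : i0.1 + m = L.n)
    {U E θ G : ℝ} (hU0 : 0 < U) (hU1 : U ≤ 1) (hE0 : 0 < E) (hE1 : E ≤ 1 / 2)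
    (hvU : L.vp / L.b ^ 2 ≤ U) (hη : L.η ≤ E)
    (hxb : 8 * (L.x ^ 2 * L.b ^ 2) ≤ 1) (hxv : L.x ^ 2 * (L.b ^ 2 + L.vp) ≤ 1 / 4)
    (hUu : L.ex' (1 - T) u (H412.CC L Finset.univ (1 - T) u) ≤ U ^ 2)
    (hUS1 : L.ex' (1 - T) u (H412.CC L (Sn L.n m) (1 - T) u) ≤ U ^ 2)
    (hUS : L.ex' (1 - T) u (fun z => H412.CC L (Sn L.n m) (1 - T) u z ^ 2) ≤ U ^ 4)
    (hθ : 5 / √m + 2 * |L.lam / ((1 - L.x) * (L.s ^ 2 * L.n))| +
      3 * ((|r0| + 1) * √(PstL L (1 - T) u)) / √U ≤ θ) (hθE : θ ≤ E)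
    (hrk : 6 / (L.n * (L.x ^ 2 * L.vp * (u1 - u0))) ≤ E ^ 2)
    (hk4 : 6 / (L.n * (L.x ^ 2 * L.b ^ 2 * (h * (T / (1 + h))))) ≤ E * U)
    (hI : 14 / ((m2 : ℝ) - m1 + 1) ≤ E / 2) {p : ℝ} (hp0 : 0 ≤ p) (hp : p ≤ E * U)
    (hpq : L.ex' (1 - T) u (H317.ind U (L.Q (Sn L.n m) (1 - T) u)) ≤ p)
    (hpc : L.ex' (1 - T) u (H317.ind (U ^ 2) (H412.CC L (Sn L.n (m - 1)) (1 - T) u)) ≤ p)
    {a1 : ℝ} (ha : 1 - 1 / (L.b * (1 - (1 - L.x) * r0)) ^ 2 ≤ a1) (hD0 : 0 < T - a1)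
    (hTD : T ≤ 2 * (T - a1)) (hc3 : a4c L.b c0 * U ^ 2 ≤ (T - a1) / 2)
    (hG : T * U ≤ G * (T - a1)) :
    T * L.rr (Sn L.n m) (1 - T) u ≤ Cf L.b c0 * (G * (L.vp / L.b ^ 2) + E) := by
  have hn : (0 : ℝ) < L.n := by exact_mod_cast hA.n0
  have hb := hA.b0
  have hη0 := hA.η0
  have hvp := hA.vp0
  set A := L.b * (1 - (1 - L.x) * r0) with hAdef
  have hApos : 0 < A := hc0.trans_le hA1
  have hkp : 0 < 1 - (1 - L.x) * r0 := by
    rw [hAdef] at hApos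
    exact (mul_pos_iff_of_pos_left hb).1 hApos
  have hkp1 : 1 - (1 - L.x) * r0 ≤ 2 / L.b := by
    rw [le_div_iff₀ hb, mul_comm]
    exact hA2
  have hη1 : L.η ≤ 1 / 2 := hη.trans hE1
  have hx1' : L.x < 1 := by linarith
  have hmn' : m < L.n := by omega
  have ht0 : 0 ≤ 1 - T := by linarith
  have ht1 : 1 - T ≤ 1 := by linarith
  set wf := u * L.vp / L.b ^ 2 with hwf
  have hwf0 : 0 ≤ wf := by rw [hwf]; positivity
  have hwf1 : wf ≤ L.vp / L.b ^ 2 := by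
    rw [hwf]
    refine div_le_div_of_nonneg_right ?_ (by positivity)
    exact mul_le_of_le_one_left hvp.le hu1
  have hwU : wf ≤ U := hwf1.trans hvU
  have hEE : E ^ 2 ≤ E := by
    rw [sq]
    exact mul_le_of_le_one_left hE0.le (by linarith only [hE1])
  -- the typical numbers
  have r1 := typ_rk hA hx0 hdu hty (Or.inl rfl) hrk
  have r2 := typ_rk hA hx0 hdu hty (Or.inr rfl) (hrk.trans hEE)
  have r3 := typ_k4 hA hx0 hh hT0 hty (Or.inr rfl) hk4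
  have hM : (0 : ℝ) < (m2 : ℝ) - m1 + 1 := by
    have : (m1 : ℝ) ≤ m2 := by exact_mod_cast hm12
    linarith
  have r4 := typ_inc hA hη1 hm12 hty hi (I := L.n * (E / 2)) (by
    calc 14 * L.n / ((m2 : ℝ) - m1 + 1) = L.n * (14 / ((m2 : ℝ) - m1 + 1)) := by ring
      _ ≤ _ := mul_le_mul_of_nonneg_left hI hn.le)
  have r4' : incL L (H418.cb (1 - T)) (H418.cf L.vp u) (Sn L.n m)
      (Kset (Sn L.n m) {true} {true}) (Kset (insert i0 (Sn L.n m)) {true} {true}) / L.n ≤ E := by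
    rw [div_le_iff₀ hn]
    refine r4.trans ?_
    have : 0 ≤ L.n * E := by positivity
    linarith only [this]
  have r1' : L.rk (Sn L.n m) (1 - T) u ≤ E ^ 2 := r1
  have hq : L.ex' (1 - T) u (L.Q (Sn L.n m) (1 - T) u) ≤ 9 / 4 * U :=
    H620.Low.exQ_le hA.lam0 hη0 hη1 hA.n0 _ hU0.le hUS1
  have hxw : L.x ^ 2 * (L.b ^ 2 * ((1 - T) + wf)) ≤ 1 / 4 := by
    refine le_trans ?_ hxv
    refine mul_le_mul_of_nonneg_left ?_ (sq_nonneg _)
    have e : L.b ^ 2 * (1 - T + wf) = L.b ^ 2 * (1 - T) + u * L.vp := by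
      rw [hwf]
      field_simp
    rw [e]
    have h2 : L.b ^ 2 * (1 - T) ≤ L.b ^ 2 * 1 := mul_le_mul_of_nonneg_left ht1 (by positivity)
    have h3 : u * L.vp ≤ L.vp := mul_le_of_le_one_left hvp.le hu1
    linarith only [h2, h3]
  have hE0' := hE0.le
  have hC3 := c3_one (t := 1 - T) (u := u) hA hη1 hs hx1' hc hkp hm1 hmn' ht0 ht1 hu0.le hi hU0
    hU1 hUu hθ hxw hE0' hE0' (by positivity : (0 : ℝ) ≤ E * U) hp0
    (by positivity : (0 : ℝ) ≤ 9 / 4 * U) r4' r2 r3 hpq hpc hq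
  have hXE := xe_sk hA hη1 hkp.le hmn'.le ht0 ht1 hu0.le (P := 1) (Lr := 0) hwU hU0 hU1 hxb hUu
    hUS r1' hθ zero_le_one le_rfl hi r4
  have key := rr_mass hA hη1 hs hx0 hx1' hc hApos hmn' hT1 hu0 hi hU0.le (c3 := c3n L.b U A)
    (by unfold c3n; positivity) ha hD0 (by
      refine le_trans ?_ hc3
      unfold c3n a4c
      have h1 : c0 ^ 2 ≤ A ^ 2 := pow_le_pow_left₀ hc0.le hA1 2
      have h2 : 6000000 * (9 / 4) * ((2 * L.b ^ 4 + 8 * L.b ^ 8) * (544 * U)) / A ^ 2 * U =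
        6000000 * (9 / 4) * ((2 * L.b ^ 4 + 8 * L.b ^ 8) * 544) * U ^ 2 / A ^ 2 := by ring
      have h3 : 6000000 * (9 / 4) * ((2 * L.b ^ 4 + 8 * L.b ^ 8) * 544) / c0 ^ 2 * U ^ 2 =
        6000000 * (9 / 4) * ((2 * L.b ^ 4 + 8 * L.b ^ 8) * 544) * U ^ 2 / c0 ^ 2 := by ring
      rw [h2, h3]
      gcongr) hC3
  have h0 := mul_le_mul_of_nonneg_left key hT0.le
  refine h0.trans ?_
  unfold ErrM
  rw [← hAdef, ← hwf]
  have hpq0 : 0 ≤ pQ L U (Sn L.n m) (1 - T) u := pQ_nonneg hA _ _ _ _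
  have hθ0 : 0 ≤ θ := le_trans (by positivity) hθ
  have he3 := err3_small (b := L.b) (kp := 1 - (1 - L.x) * r0) (U := U) (wf := wf) (θ := θ)
    (η := L.η) (inc := E) (rk := E) (k4 := E * U) (p := p) (E := E) hb hkp.le hkp1 hU0 hU1 hE0'
    (by linarith) hwf0 hwU hθ0 hθE hη0 hη hE0' le_rfl hE0' le_rfl le_rfl hp0 hp
  have hsq : √(E ^ 2) = E := Real.sqrt_sq hE0'
  have hE1c := E1c_small (b := L.b) (x := L.x) (kp := 1 - (1 - L.x) * r0) (η := L.η) (U := U)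
    (wf := wf) (θ := θ) (rk := E ^ 2) (E := E) hb hA.x0 hA.x1 hkp.le hkp1 hU0 hU1 hE0' hwf0
    (hwU.trans hU1) hθ0 hθE hη0 hη hsq.le
  have hnm : (L.n : ℝ) / 2 ≤ L.n - m := by
    have : (2 * m : ℝ) ≤ L.n := by exact_mod_cast hmn
    linarith
  have hI' : 1 * (L.n * (E / 2)) / (L.n - m) ≤ E := by
    have h9 : 0 < (L.n : ℝ) - m := by linarith only [hnm, hn]
    rw [div_le_iff₀ h9]
    have h10 : E * (L.n / 2) ≤ E * (L.n - m) := mul_le_mul_of_nonneg_left hnm hE0'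
    linarith only [h10]
  have hX : XE L r0 1 0 m (1 - T) u i0 ≤
      (1 * (L.n * (E / 2)) / (L.n - m) + a3c L.b * E) / A ^ 2 := by
    refine (show XE L r0 1 0 m (1 - T) u i0 ≤ _ from hXE).trans ?_
    refine div_le_div_of_nonneg_right ?_ (sq_nonneg _)
    have e : 918 * L.b ^ 2 * 0 * U * √(L.n * (E / 2) + 9 / 4 * U) / √L.n = 0 := by ring
    rw [e]
    linarith only [hE1c]
  refine (far_pure (c0 := c0) (p := p) (T := T) (G := G) hb hc0 hA1 hU0 hU1 hE0' hwf0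
    hη0 hη hE1 he3 hX hI' hpq0 hpq (hp.trans (mul_le_of_le_one_right hE0' hU1)) ?_
    (CC_le_one hA _) (r1'.trans hEE) hD0 hTD hT0.le hT1 hG).trans ?_
  · exact (rr_nonneg hA.lam0 hη0).trans (rr_le_CC hA _)
  · have hCf : 0 ≤ Cf L.b c0 := by
      obtain ⟨n1, n2, n3, n4⟩ := a_nonneg hb hc0
      unfold Cf
      positivity
    refine mul_le_mul_of_nonneg_left ?_ hCf
    have hG0 : 0 ≤ G := by
      have h1 : 0 < T * U := by positivity
      by_contra hneg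
      push Not at hneg
      have h2 : G * (T - a1) ≤ 0 := mul_nonpos_of_nonpos_of_nonneg hneg.le hD0.le
      linarith only [h1, h2, hG]
    have := mul_le_mul_of_nonneg_left hwf1 hG0
    linarith only [this]

end

end Vale.Agent.P146.H643.LC
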