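import Vale.Agent.P146.H75.KUp

/-!
# P146: the second moment of the overlap from above at one point, with the mass kept

`rr_mass` is `H75.rr_up2` with the linear coefficient `T - a1` kept: for a negative tangent
(`a1` negative, the mass) the cubic term is absorbed by the mass as soon as
`c3 U ≤ (T - a1) / 2`, and the bound carries the factor `2 / (T - a1)` in place of `2 / T`.

`mass_zones` is the sum of the zones of the massive case: far zone, middle zone by monotonicity,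
near zone.
-/

open MeasureTheory ProbabilityTheory Set

namespace Vale.Agent.P146.H643

open Vale.Agent.P157.Lv hiding Dep
open Vale.Agent.P146.H425 Vale.Agent.P146.H646
open Vale.Agent.P146.H325 hiding cb cf
open Vale.Agent.P146.H196 Vale.Agent.P146.H246 Vale.Agent.P146.H347
  Vale.Agent.P146.H816 Vale.Agent.P146.H119 Vale.Agent.P146.H475 Vale.Agent.P146.H418
  Vale.Agent.P146.H317 Vale.Agent.P146.H75

set_option linter.unusedSectionVars false

section point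

variable {L : Law}

/-- the error of the massive regime at one point, linear coefficient `D` -/
noncomputable def ErrM (L : Law) (r0 c3 err3 U D : ℝ) (m : ℕ) (T u : ℝ) (i0 : Fin L.n) : ℝ :=
  4 * (U * (2 / D * (u * L.vp / L.b ^ 2 + (err3 / (L.b * (1 - (1 - L.x) * r0)) ^ 2 +
      XE L r0 1 0 m (1 - T) u i0) + c3 * (1 + L.η) ^ 4 * pQ L U (Sn L.n m) (1 - T) u)) +
    (1 + L.η) ^ 4 * pQ L U (Sn L.n m) (1 - T) u) +
  4 * (L.η * (2 + L.η)) ^ 2 * CC L (Sn L.n m) (1 - T) u + 2 * L.rk (Sn L.n m) (1 - T) u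

/-- the tested linear equation with the mass kept: the first moment of `Q` -/
theorem exQ_mass (hA : H320.Adm L) (hη1 : L.η ≤ 1 / 2) (hs : L.s ≠ 0) (hx0 : 0 < L.x)
    (hx1 : L.x < 1) {r0 : ℝ} (hc : L.c = L.s ^ 2 * L.n * (1 - (1 - L.x) * r0))
    (hk : 0 < L.b * (1 - (1 - L.x) * r0)) {m : ℕ} (hmn : m < L.n) {T u : ℝ}
    (hT1 : T ≤ 1) (hu0 : 0 < u) {i0 : Fin L.n}
    (hi0 : i0.1 + m = L.n) {a1 c3 err3 U : ℝ} (hU : 0 ≤ U) (hc3 : 0 ≤ c3)
    (ha : 1 - 1 / (L.b * (1 - (1 - L.x) * r0)) ^ 2 ≤ a1)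
    (hD0 : 0 < T - a1) (hD : c3 * U ≤ (T - a1) / 2)
    (hC3 : C3U L r0 (fun _ => 1) m (1 - T) u i0 ≤
      (L.b * (1 - (1 - L.x) * r0)) ^ 2 * (c3 * L.qq (Sn L.n m) (1 - T) u) + err3) :
    L.ex' (1 - T) u (L.Q (Sn L.n m) (1 - T) u) ≤
      2 / (T - a1) * (u * L.vp / L.b ^ 2 + (err3 / (L.b * (1 - (1 - L.x) * r0)) ^ 2 +
        XE L r0 1 0 m (1 - T) u i0) + c3 * (1 + L.η) ^ 4 * pQ L U (Sn L.n m) (1 - T) u) := by
  obtain ⟨hwf, ht, hSn, hi1, hne⟩ := pt_data hA hmn hT1 hu0 hi0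
  have hvb : 0 < u * L.vp / L.b ^ 2 := by
    have := hA.vp0
    have := hA.b0
    positivity
  have hbx : 0 < L.b * L.x := mul_pos hA.b0 hx0
  have hw := wt_L hA (1 - T) u
  have bQ := bm_Q hA (Sn L.n m) (1 - T) u
  have hAt0 : 1 - (1 : ℝ) ≤ L.b * (1 - (1 - L.x) * r0) * (1 - T) ^ 2 := by
    have : 0 ≤ L.b * (1 - (1 - L.x) * r0) * (1 - T) ^ 2 := mul_nonneg hk.le (sq_nonneg _)
    linarith
  have key := (H615.point_G hA.lam0 hA.η0 hη1 hs hx0 hx1 hA.n0 hc hk hA.b0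
    (Finset.subset_univ (Sn L.n m)) hSn hi1 hne ht hwf hvb.le (G := fun _ => 1) (P := 1)
    (Lr := 0) measurable_const (fun _ _ => zero_le_one) zero_le_one (fun _ _ => le_rfl) le_rfl
    (fun r r' _ _ => by simp)).1 hAt0 ha
  set A := L.b * (1 - (1 - L.x) * r0) with hAdef
  have hA2 : 0 < A ^ 2 := by positivity
  set X := L.ex' (1 - T) u (L.Q (Sn L.n m) (1 - T) u) with hX
  have hX0 : 0 ≤ X := exQ_nonneg hA _ _ _
  set q := L.qq (Sn L.n m) (1 - T) u with hq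
  set pp := pQ L U (Sn L.n m) (1 - T) u with hpp
  have hpp0 : 0 ≤ pp := pQ_nonneg hA _ _ _ _
  set V := u * L.vp / L.b ^ 2 with hV
  have e1 : exS L.n L.b (cb (1 - T)) (cf L.vp u) L.s L.η L.lam L.c L.x
      (fun z => (fun _ : ℝ => (1 : ℝ)) (√(H615.Qv L.n L.b (cb (1 - T)) (cf L.vp u) L.s L.η L.lam
        L.c L.x (Sn L.n m) {true} {true} z)) *
        ((1 - 1) * (L.b * L.x) * H615.Qv L.n L.b (cb (1 - T)) (cf L.vp u) L.s L.η L.lam
        L.c L.x (Sn L.n m) {true} {true} z ^ 2 + (1 - (1 - T) - a1) *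
        H615.Qv L.n L.b (cb (1 - T)) (cf L.vp u) L.s L.η L.lam
        L.c L.x (Sn L.n m) {true} {true} z - V)) = (T - a1) * X - V := by
    have e2 : (fun z : Co L.n Bool Bool → ℝ => (fun _ : ℝ => (1 : ℝ)) (√(H615.Qv L.n L.b
        (cb (1 - T)) (cf L.vp u) L.s L.η L.lam L.c L.x (Sn L.n m) {true} {true} z)) *
        ((1 - 1) * (L.b * L.x) * H615.Qv L.n L.b (cb (1 - T)) (cf L.vp u) L.s L.η L.lam
        L.c L.x (Sn L.n m) {true} {true} z ^ 2 + (1 - (1 - T) - a1) *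
        H615.Qv L.n L.b (cb (1 - T)) (cf L.vp u) L.s L.η L.lam
        L.c L.x (Sn L.n m) {true} {true} z - V)) =
        fun z => (T - a1) * L.Q (Sn L.n m) (1 - T) u z - V := by
      funext z
      rw [Qv_eq]
      ring
    rw [e2]
    show ex (g1 (Co L.n Bool Bool)) (L.wt (1 - T) u)
      (fun z => (T - a1) * L.Q (Sn L.n m) (1 - T) u z - V) = _
    rw [H615.ex_sub (wt_L hA (1 - T) u) (H615.bcm _ bQ) (BM.const _),
      H615.ex_const (wt_L hA (1 - T) u), H615.ex_cmul]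
    rfl
  rw [e1] at key
  have hC3' : H615.C3v L.n L.b (cb (1 - T)) (cf L.vp u) L.s L.η L.lam L.c L.x
      (1 - (1 - L.x) * r0) (Sn L.n m) {true} {true} i0
      (fun z => (fun _ : ℝ => (1 : ℝ)) (√(H615.Qv L.n L.b (cb (1 - T)) (cf L.vp u) L.s L.η L.lam
        L.c L.x (Sn L.n m) {true} {true} z))) ≤ A ^ 2 * (c3 * q) + err3 := hC3
  have h1 : (T - a1) * X - V ≤ c3 * q + (err3 / A ^ 2 + XE L r0 1 0 m (1 - T) u i0) := by
    refine key.trans ?_
    unfold XE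
    rw [← hAdef, ← hV, ← add_div]
    rw [div_le_iff₀ hA2, add_mul, div_mul_cancel₀ _ hA2.ne']
    have h2 : c3 * q * A ^ 2 = A ^ 2 * (c3 * q) := by ring
    rw [h2]
    linarith
  have hqq := qq_le hA (Sn L.n m) (1 - T) u hU
  rw [← hX, ← hpp, ← hq] at hqq
  set Y := err3 / A ^ 2 + XE L r0 1 0 m (1 - T) u i0 with hY
  have h2 : (T - a1) / 2 * X ≤ V + Y + c3 * (1 + L.η) ^ 4 * pp := by
    have h3 := mul_le_mul_of_nonneg_left hqq hc3
    have h4 := mul_le_mul_of_nonneg_right hD hX0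
    nlinarith
  have h6 := mul_le_mul_of_nonneg_left h2 (show 0 ≤ 2 / (T - a1) by positivity)
  have h7 : 2 / (T - a1) * ((T - a1) / 2 * X) = X := by
    field_simp
  rw [h7] at h6
  exact h6

/-- **The second moment of the overlap from above at one point, with the mass kept.** -/
theorem rr_mass (hA : H320.Adm L) (hη1 : L.η ≤ 1 / 2) (hs : L.s ≠ 0) (hx0 : 0 < L.x)
    (hx1 : L.x < 1) {r0 : ℝ} (hc : L.c = L.s ^ 2 * L.n * (1 - (1 - L.x) * r0))
    (hk : 0 < L.b * (1 - (1 - L.x) * r0)) {m : ℕ} (hmn : m < L.n) {T u : ℝ}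
    (hT1 : T ≤ 1) (hu0 : 0 < u) {i0 : Fin L.n}
    (hi0 : i0.1 + m = L.n) {a1 c3 err3 U : ℝ} (hU : 0 ≤ U) (hc3 : 0 ≤ c3)
    (ha : 1 - 1 / (L.b * (1 - (1 - L.x) * r0)) ^ 2 ≤ a1)
    (hD0 : 0 < T - a1) (hD : c3 * U ≤ (T - a1) / 2)
    (hC3 : C3U L r0 (fun _ => 1) m (1 - T) u i0 ≤
      (L.b * (1 - (1 - L.x) * r0)) ^ 2 * (c3 * L.qq (Sn L.n m) (1 - T) u) + err3) :
    L.rr (Sn L.n m) (1 - T) u ≤ ErrM L r0 c3 err3 U (T - a1) m T u i0 := by
  have h5 := exQ_mass hA hη1 hs hx0 hx1 hc hk hmn hT1 hu0 hi0 hU hc3 ha hD0 hD hC3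
  have hqq := qq_le hA (Sn L.n m) (1 - T) u hU
  have h9 := rr_le_qq (S := Sn L.n m) (t := 1 - T) (u := u) (θ := 1) hA.lam0 hA.η0 hA.n0
    one_pos
  have h8 := mul_le_mul_of_nonneg_left h5 hU
  unfold ErrM
  have h10 : (1 + (1 : ℝ)) ^ 2 = 4 := by norm_num
  have h11 : (1 + (1 : ℝ)) * (1 + 1 / 1) = 4 := by norm_num
  have h12 : (1 + (1 : ℝ) / 1) = 2 := by norm_num
  rw [h10, h11, h12] at h9
  linarith

end point

end Vale.Agent.P146.H643
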