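import Vale.Agent.P146.H643.LcC3

/-!
# P146: the far zone of LC, pure numbers

All small numbers are bounded by one number `E`, the field `wf` and the overlap `U` are kept.
-/

namespace Vale.Agent.P146.H643.LC

open Vale.Agent.P146.H317 Vale.Agent.P146.H615

/-- the constants -/
noncomputable def a1c (b : ℝ) : ℝ :=
  6 * b ^ 2 * (1 + (1 + 2 / b) ^ 2) + 6000000 * (9 / 4) * ((2 * b ^ 4 + 8 * b ^ 8) * 71000)

/-- the constants -/
noncomputable def a2c (b : ℝ) : ℝ := 6000000 * (9 / 4) * (7 * b ^ 4 + 8 * b ^ 8)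

/-- the constants -/
noncomputable def a3c (b : ℝ) : ℝ :=
  2 * (2 / b) * b ^ 2 * (5 / 2 + 2 / b) + (2 / b) ^ 2 * b ^ 4 * (377 + 12 * (2 / b))

/-- the constants -/
noncomputable def a4c (b c0 : ℝ) : ℝ :=
  6000000 * (9 / 4) * ((2 * b ^ 4 + 8 * b ^ 8) * 544) / c0 ^ 2

/-- the constant of the far zone -/
noncomputable def Cf (b c0 : ℝ) : ℝ :=
  8 * (1 + a2c b / c0 ^ 2) +
    16 * ((a1c b + a3c b + 1) / c0 ^ 2 + a4c b c0 * (81 / 16)) + 51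

lemma a_nonneg {b c0 : ℝ} (hb : 0 < b) (_hc : 0 < c0) :
    0 ≤ a1c b ∧ 0 ≤ a2c b ∧ 0 ≤ a3c b ∧ 0 ≤ a4c b c0 := by
  unfold a1c a2c a3c a4c
  refine ⟨?_, ?_, ?_, ?_⟩ <;> positivity

lemma NC3_small {U η inc rk k4 p E : ℝ} (hU0 : 0 < U) (hU1 : U ≤ 1) (hE0 : 0 ≤ E) (hE1 : E ≤ 1)
    (hη0 : 0 ≤ η) (hη : η ≤ E) (hi0 : 0 ≤ inc) (hi : inc ≤ E) (hr0 : 0 ≤ rk) (hr : rk ≤ E)
    (hk : k4 ≤ E * U) (hp0 : 0 ≤ p) (hp : p ≤ E * U) :
    NC3 U U U η inc rk k4 p p p ≤ 71000 * E := by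
  unfold NC3
  have hpE : p ≤ E := hp.trans (mul_le_of_le_one_right hE0 hU1)
  have e1 : U ^ 2 / U = U := by
    field_simp
  have e2 : 2 * U ^ 4 / U = 2 * U ^ 3 := by
    field_simp
  rw [e1, e2]
  have h1 : η ^ 2 * (U + p) ≤ 2 * E := by
    have h2 : η ^ 2 ≤ E := by nlinarith
    have h3 : U + p ≤ 2 := by linarith
    calc η ^ 2 * (U + p) ≤ E * 2 := mul_le_mul h2 h3 (by positivity) hE0
      _ = 2 * E := by ring
  have h2 : 4 * U * (2 * η ^ 2 * (U + p) + 2 * inc) ≤ 24 * E := by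
    have h3 : 2 * η ^ 2 * (U + p) + 2 * inc ≤ 6 * E := by nlinarith
    have h4 : 0 ≤ 2 * η ^ 2 * (U + p) + 2 * inc := by positivity
    calc 4 * U * (2 * η ^ 2 * (U + p) + 2 * inc) ≤ 4 * 1 * (6 * E) := by gcongr
      _ = 24 * E := by ring
  have h3 : 36 * U * (16 * (4 * U * (2 * η ^ 2 * (U + p) + 2 * inc) + 49 * (p + p)) + 2 * rk) ≤
      36 * (16 * (24 * E + 98 * E) + 2 * E) := by
    have h4 : 16 * (4 * U * (2 * η ^ 2 * (U + p) + 2 * inc) + 49 * (p + p)) + 2 * rk ≤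
        16 * (24 * E + 98 * E) + 2 * E := by linarith
    have h5 : 0 ≤ 16 * (4 * U * (2 * η ^ 2 * (U + p) + 2 * inc) + 49 * (p + p)) + 2 * rk := by
      positivity
    calc _ ≤ 36 * 1 * (16 * (24 * E + 98 * E) + 2 * E) := by gcongr
      _ = _ := by ring
  have h4 : 8 * k4 / U ≤ 8 * E := by
    rw [div_le_iff₀ hU0]
    linarith
  have h5 : (2 * U ^ 3 + 2 * U ^ 3) * p ≤ 4 * E := by
    have h6 : U ^ 3 ≤ 1 := pow_le_one₀ hU0.le hU1
    calc (2 * U ^ 3 + 2 * U ^ 3) * p ≤ (2 * 1 + 2 * 1) * E := by gcongr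
      _ = 4 * E := by ring
  have h6 : 5 / U * (p + p) ≤ 10 * E := by
    rw [div_mul_eq_mul_div, div_le_iff₀ hU0]
    linarith
  linarith

lemma err3_small {b kp U wf θ η inc rk k4 p E : ℝ} (hb : 0 < b) (hk0 : 0 ≤ kp)
    (hk1 : kp ≤ 2 / b) (hU0 : 0 < U) (hU1 : U ≤ 1) (hE0 : 0 ≤ E) (hE1 : E ≤ 1)
    (hw0 : 0 ≤ wf) (hwU : wf ≤ U) (hθ0 : 0 ≤ θ) (hθ : θ ≤ E)
    (hη0 : 0 ≤ η) (hη : η ≤ E) (hi0 : 0 ≤ inc) (hi : inc ≤ E) (hr0 : 0 ≤ rk) (hr : rk ≤ E)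
    (hk : k4 ≤ E * U) (hp0 : 0 ≤ p) (hp : p ≤ E * U) :
    err3n b kp U wf θ η inc rk k4 p (9 / 4 * U) ≤ a1c b * E + a2c b * wf := by
  have hN := NC3_small hU0 hU1 hE0 hE1 hη0 hη hi0 hi hr0 hr hk hp0 hp
  have hw1 : wf ≤ 1 := hwU.trans hU1
  unfold err3n a1c a2c
  have h1 : θ ^ 2 ≤ E := by nlinarith
  have h2 : (θ + kp * η) ^ 2 ≤ (1 + 2 / b) ^ 2 * E := by
    have h3 : θ + kp * η ≤ (1 + 2 / b) * E := by
      have h4 : kp * η ≤ 2 / b * E := mul_le_mul hk1 hη hη0 (by positivity)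
      linarith
    have h5 : (θ + kp * η) ^ 2 ≤ ((1 + 2 / b) * E) ^ 2 := pow_le_pow_left₀ (by positivity) h3 2
    have h6 : E ^ 2 ≤ E := by nlinarith
    calc (θ + kp * η) ^ 2 ≤ ((1 + 2 / b) * E) ^ 2 := h5
      _ = (1 + 2 / b) ^ 2 * E ^ 2 := by ring
      _ ≤ _ := mul_le_mul_of_nonneg_left h6 (sq_nonneg _)
  have h3 : U * θ ^ 2 + wf * (θ + kp * η) ^ 2 ≤ (1 + (1 + 2 / b) ^ 2) * E := by
    have h4 : U * θ ^ 2 ≤ 1 * E := mul_le_mul hU1 h1 (sq_nonneg _) zero_le_one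
    have h5 : wf * (θ + kp * η) ^ 2 ≤ 1 * ((1 + 2 / b) ^ 2 * E) :=
      mul_le_mul hw1 h2 (sq_nonneg _) zero_le_one
    linarith
  have h4 : 6 * (b ^ 2 * (U * θ ^ 2 + wf * (θ + kp * η) ^ 2)) ≤
      6 * b ^ 2 * (1 + (1 + 2 / b) ^ 2) * E := by
    have := mul_le_mul_of_nonneg_left h3 (show 0 ≤ 6 * b ^ 2 by positivity)
    linarith
  have h5 : (2 * b ^ 4 + 8 * b ^ 8) * NC3 U U U η inc rk k4 p p p ≤
      (2 * b ^ 4 + 8 * b ^ 8) * (71000 * E) := mul_le_mul_of_nonneg_left hN (by positivity)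
  have hw2 : wf ^ 2 ≤ wf := by nlinarith
  have h6 : 2 * b ^ 4 * wf ^ 2 * (9 / 4 * U + U) ≤ 7 * b ^ 4 * wf := by
    have h7 : 9 / 4 * U + U ≤ 7 / 2 := by linarith
    calc 2 * b ^ 4 * wf ^ 2 * (9 / 4 * U + U) ≤ 2 * b ^ 4 * wf * (7 / 2) := by gcongr
      _ = _ := by ring
  have h7 : 8 * b ^ 8 * wf ^ 4 / U ≤ 8 * b ^ 8 * wf := by
    rw [div_le_iff₀ hU0]
    have h8 : wf ^ 4 ≤ wf * U := by
      calc wf ^ 4 = wf ^ 2 * wf ^ 2 := by ring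
        _ ≤ wf * wf := mul_le_mul hw2 hw2 (sq_nonneg _) hw0
        _ ≤ wf * U := mul_le_mul_of_nonneg_left hwU hw0
    calc 8 * b ^ 8 * wf ^ 4 ≤ 8 * b ^ 8 * (wf * U) := by gcongr
      _ = _ := by ring
  linarith

lemma E1c_small {b x kp η U wf θ rk E : ℝ} (hb : 0 < b) (hx0 : 0 ≤ x) (hx1 : x ≤ 1)
    (hk0 : 0 ≤ kp) (hk1 : kp ≤ 2 / b) (hU0 : 0 < U) (hU1 : U ≤ 1) (hE0 : 0 ≤ E)
    (_hw0 : 0 ≤ wf) (hw1 : wf ≤ 1) (hθ0 : 0 ≤ θ) (hθ : θ ≤ E) (hη0 : 0 ≤ η) (hη : η ≤ E)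
    (hr : √rk ≤ E) : E1c b x kp η U wf θ rk ≤ a3c b * E := by
  unfold E1c a3c
  have h1 : 2 * kp * b ^ 2 * (5 / 2 * (U * θ) + wf * (kp * η)) ≤
      2 * (2 / b) * b ^ 2 * (5 / 2 + 2 / b) * E := by
    have h2 : U * θ ≤ E := (mul_le_of_le_one_left hθ0 hU1).trans hθ
    have h3 : wf * (kp * η) ≤ 2 / b * E := by
      have h4 : kp * η ≤ 2 / b * E := mul_le_mul hk1 hη hη0 (by positivity)
      exact (mul_le_of_le_one_left (by positivity) hw1).trans h4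
    have h4 : 5 / 2 * (U * θ) + wf * (kp * η) ≤ (5 / 2 + 2 / b) * E := by linarith
    have h5 : 0 ≤ (5 / 2 + 2 / b) * E := by positivity
    calc 2 * kp * b ^ 2 * (5 / 2 * (U * θ) + wf * (kp * η)) ≤
          2 * kp * b ^ 2 * ((5 / 2 + 2 / b) * E) := by gcongr
      _ ≤ 2 * (2 / b) * b ^ 2 * ((5 / 2 + 2 / b) * E) := by gcongr
      _ = _ := by ring
  have h2 : x * kp ^ 2 * b ^ 4 * (U ^ 2 * (23 * θ + (312 + 12 * kp) * η) + 42 * (U * √rk)) ≤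
      (2 / b) ^ 2 * b ^ 4 * (377 + 12 * (2 / b)) * E := by
    have h3 : 23 * θ + (312 + 12 * kp) * η ≤ (335 + 12 * (2 / b)) * E := by
      have h4 : (312 + 12 * kp) * η ≤ (312 + 12 * (2 / b)) * E :=
        mul_le_mul (by linarith) hη hη0 (by positivity)
      linarith
    have h4 : U ^ 2 * (23 * θ + (312 + 12 * kp) * η) ≤ (335 + 12 * (2 / b)) * E := by
      have h5 : U ^ 2 ≤ 1 := pow_le_one₀ hU0.le hU1
      exact (mul_le_of_le_one_left (by positivity) h5).trans h3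
    have h5 : 42 * (U * √rk) ≤ 42 * E := by
      have h6 : U * √rk ≤ E := (mul_le_of_le_one_left (Real.sqrt_nonneg _) hU1).trans hr
      linarith
    have h6 : U ^ 2 * (23 * θ + (312 + 12 * kp) * η) + 42 * (U * √rk) ≤
        (377 + 12 * (2 / b)) * E := by linarith
    have h7 : 0 ≤ (377 + 12 * (2 / b)) * E := by positivity
    calc _ ≤ x * kp ^ 2 * b ^ 4 * ((377 + 12 * (2 / b)) * E) := by gcongr
      _ ≤ 1 * (2 / b) ^ 2 * b ^ 4 * ((377 + 12 * (2 / b)) * E) := by gcongr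
      _ = _ := by ring
  linarith

/-- **The sum of all terms.** -/
lemma far_pure {b c0 A U wf e3 X pq CC rk p D T G E η I' : ℝ} (hb : 0 < b) (hc : 0 < c0)
    (hA : c0 ≤ A) (hU0 : 0 < U) (hU1 : U ≤ 1) (hE0 : 0 ≤ E) (hw0 : 0 ≤ wf)
    (hη0 : 0 ≤ η) (hη : η ≤ E) (hE1 : E ≤ 1 / 2) (he3 : e3 ≤ a1c b * E + a2c b * wf)
    (hX : X ≤ (I' + a3c b * E) / A ^ 2) (hI : I' ≤ E)
    (hpq0 : 0 ≤ pq) (hpq : pq ≤ p) (hp : p ≤ E) (hCC0 : 0 ≤ CC) (hCC : CC ≤ 1)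
    (hrk : rk ≤ E) (hD0 : 0 < D) (hTD : T ≤ 2 * D) (hT0 : 0 ≤ T) (hT1 : T ≤ 1)
    (hG : T * U ≤ G * D) :
    T * (4 * (U * (2 / D * (wf + (e3 / A ^ 2 + X) + c3n b U A * (1 + η) ^ 4 * pq)) +
      (1 + η) ^ 4 * pq) + 4 * (η * (2 + η)) ^ 2 * CC + 2 * rk) ≤ Cf b c0 * (G * wf + E) := by
  obtain ⟨n1, n2, n3, n4⟩ := a_nonneg hb hc
  have hA0 : 0 < A := hc.trans_le hA
  have hη1 : η ≤ 1 / 2 := hη.trans hE1
  have hc2 : 0 < c0 ^ 2 := by positivity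
  have hA2 : c0 ^ 2 ≤ A ^ 2 := pow_le_pow_left₀ hc.le hA 2
  have hη4 : (1 + η) ^ 4 ≤ 81 / 16 := by
    calc (1 + η) ^ 4 ≤ (3 / 2) ^ 4 := pow_le_pow_left₀ (by linarith) (by linarith) 4
      _ = 81 / 16 := by norm_num
  have hpE : pq ≤ E := hpq.trans hp
  -- the division by `A²`
  have q1 : e3 / A ^ 2 + X ≤ (a1c b * E + a2c b * wf + E + a3c b * E) / c0 ^ 2 := by
    have h1 : e3 / A ^ 2 + X ≤ (a1c b * E + a2c b * wf + E + a3c b * E) / A ^ 2 := by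
      have h2 : e3 / A ^ 2 ≤ (a1c b * E + a2c b * wf) / A ^ 2 := by gcongr
      have h3 : (I' + a3c b * E) / A ^ 2 ≤ (E + a3c b * E) / A ^ 2 := by gcongr
      have h4 : (a1c b * E + a2c b * wf + E + a3c b * E) / A ^ 2 =
          (a1c b * E + a2c b * wf) / A ^ 2 + (E + a3c b * E) / A ^ 2 := by ring
      rw [h4]
      linarith
    refine h1.trans ?_
    have h5 : 0 ≤ a1c b * E + a2c b * wf + E + a3c b * E := by positivity
    gcongr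
  have q2 : c3n b U A * (1 + η) ^ 4 * pq ≤ a4c b c0 * (81 / 16) * E := by
    have h1 : c3n b U A ≤ a4c b c0 := by
      unfold c3n a4c
      have h2 : 6000000 * (9 / 4) * ((2 * b ^ 4 + 8 * b ^ 8) * (544 * U)) ≤
          6000000 * (9 / 4) * ((2 * b ^ 4 + 8 * b ^ 8) * 544) := by
        have h3 : 544 * U ≤ 544 := by linarith
        have h4 : (2 * b ^ 4 + 8 * b ^ 8) * (544 * U) ≤ (2 * b ^ 4 + 8 * b ^ 8) * 544 :=
          mul_le_mul_of_nonneg_left h3 (by positivity)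
        linarith
      gcongr
    have h0 : 0 ≤ c3n b U A := by
      unfold c3n
      positivity
    calc c3n b U A * (1 + η) ^ 4 * pq ≤ a4c b c0 * (81 / 16) * E := by gcongr
      _ = _ := rfl
  have q3 : wf + (e3 / A ^ 2 + X) + c3n b U A * (1 + η) ^ 4 * pq ≤
      (1 + a2c b / c0 ^ 2) * wf +
        ((a1c b + a3c b + 1) / c0 ^ 2 + a4c b c0 * (81 / 16)) * E := by
    have e : (a1c b * E + a2c b * wf + E + a3c b * E) / c0 ^ 2 =
        a2c b / c0 ^ 2 * wf + (a1c b + a3c b + 1) / c0 ^ 2 * E := by ring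
    rw [e] at q1
    linarith
  set a5 := 1 + a2c b / c0 ^ 2 with ha5
  set a6 := (a1c b + a3c b + 1) / c0 ^ 2 + a4c b c0 * (81 / 16) with ha6
  have ha50 : 0 ≤ a5 := by rw [ha5]; positivity
  have ha60 : 0 ≤ a6 := by rw [ha6]; positivity
  have q4 : T * (4 * (U * (2 / D * (wf + (e3 / A ^ 2 + X) + c3n b U A * (1 + η) ^ 4 * pq)))) ≤
      8 * a5 * (G * wf) + 16 * a6 * E := by
    have h1 : T * (4 * (U * (2 / D * (wf + (e3 / A ^ 2 + X) + c3n b U A * (1 + η) ^ 4 * pq)))) =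
        8 * (T * U / D) * (wf + (e3 / A ^ 2 + X) + c3n b U A * (1 + η) ^ 4 * pq) := by ring
    have h2 : 0 ≤ T * U / D := by positivity
    have h3 : T * U / D ≤ G := by
      rw [div_le_iff₀ hD0]
      exact hG
    have h4 : T * U / D ≤ 2 := by
      rw [div_le_iff₀ hD0]
      exact (mul_le_of_le_one_right hT0 hU1).trans hTD
    rw [h1]
    have h5 := mul_le_mul_of_nonneg_left q3 (show 0 ≤ 8 * (T * U / D) by positivity)
    have h6 : 8 * (T * U / D) * (a5 * wf + a6 * E) =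
        8 * a5 * (T * U / D * wf) + 8 * a6 * (T * U / D * E) := by ring
    rw [h6] at h5
    have h7 : T * U / D * wf ≤ G * wf := mul_le_mul_of_nonneg_right h3 hw0
    have h8 : T * U / D * E ≤ 2 * E := mul_le_mul_of_nonneg_right h4 hE0
    have h9 : 8 * a5 * (T * U / D * wf) ≤ 8 * a5 * (G * wf) :=
      mul_le_mul_of_nonneg_left h7 (by positivity)
    have h10 : 8 * a6 * (T * U / D * E) ≤ 8 * a6 * (2 * E) :=
      mul_le_mul_of_nonneg_left h8 (by positivity)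
    linarith
  have q5 : T * (4 * ((1 + η) ^ 4 * pq)) ≤ 21 * E := by
    have h1 : 4 * ((1 + η) ^ 4 * pq) ≤ 4 * (81 / 16 * E) := by gcongr
    have h2 : 0 ≤ 4 * ((1 + η) ^ 4 * pq) := by positivity
    have h3 := mul_le_of_le_one_left h2 hT1
    linarith
  have q6 : T * (4 * (η * (2 + η)) ^ 2 * CC) ≤ 28 * E := by
    have h1 : η * (2 + η) ≤ 5 / 2 * E := by
      have : 2 + η ≤ 5 / 2 := by linarith
      calc η * (2 + η) ≤ E * (5 / 2) := mul_le_mul hη this (by positivity) hE0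
        _ = _ := by ring
    have h2 : (η * (2 + η)) ^ 2 ≤ 7 * E := by
      have h3 : (η * (2 + η)) ^ 2 ≤ (5 / 2 * E) ^ 2 := pow_le_pow_left₀ (by positivity) h1 2
      have h4 : E * E ≤ 1 / 2 * E := mul_le_mul_of_nonneg_right hE1 hE0
      have h5 : (5 / 2 * E) ^ 2 = 25 / 4 * (E * E) := by ring
      rw [h5] at h3
      linarith only [h3, h4, hE0]
    have h4 : 4 * (η * (2 + η)) ^ 2 * CC ≤ 28 * E := by
      have h5 : 4 * (η * (2 + η)) ^ 2 * CC ≤ 4 * (η * (2 + η)) ^ 2 * 1 :=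
        mul_le_mul_of_nonneg_left hCC (by positivity)
      linarith
    have h5 : 0 ≤ 4 * (η * (2 + η)) ^ 2 * CC := by positivity
    exact (mul_le_of_le_one_left h5 hT1).trans h4
  have q7 : T * (2 * rk) ≤ 2 * E := by
    have h1 : T * (2 * rk) ≤ T * (2 * E) := mul_le_mul_of_nonneg_left (by linarith) hT0
    have h2 : T * (2 * E) ≤ 1 * (2 * E) := mul_le_mul_of_nonneg_right hT1 (by linarith)
    linarith
  have hGw : 0 ≤ G * wf := by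
    have h1 : 0 ≤ T * U / D := by positivity
    have h3 : T * U / D ≤ G := by
      rw [div_le_iff₀ hD0]
      exact hG
    exact mul_nonneg (h1.trans h3) hw0
  have hfin : T * (4 * (U * (2 / D * (wf + (e3 / A ^ 2 + X) + c3n b U A * (1 + η) ^ 4 * pq)) +
      (1 + η) ^ 4 * pq) + 4 * (η * (2 + η)) ^ 2 * CC + 2 * rk) =
      T * (4 * (U * (2 / D * (wf + (e3 / A ^ 2 + X) + c3n b U A * (1 + η) ^ 4 * pq)))) +
      T * (4 * ((1 + η) ^ 4 * pq)) + T * (4 * (η * (2 + η)) ^ 2 * CC) + T * (2 * rk) := by ring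
  rw [hfin]
  unfold Cf
  rw [← ha5, ← ha6]
  have hx1 : 0 ≤ a6 * (G * wf) := mul_nonneg ha60 hGw
  have hx2 : 0 ≤ a5 * E := mul_nonneg ha50 hE0
  have e9 : (8 * a5 + 16 * a6 + 51) * (G * wf + E) =
      8 * a5 * (G * wf) + 16 * a6 * E + 51 * E + 8 * (a5 * E) + 16 * (a6 * (G * wf)) +
        51 * (G * wf) := by ring
  rw [e9]
  linarith

end Vale.Agent.P146.H643.LC
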